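import Mathlib

/-!
# Finite jets of holomorphic functions on the disc
-/

namespace Vale.Agent.P142J

open Complex Metric Set Finset

/-- `p z = ∑_{k<N} c k z^k + z^N q z` on the unit disc, with `q` holomorphic there. -/
def Jet (p : ℂ → ℂ) (c : ℕ → ℂ) (N : ℕ) : Prop :=
  ∃ q : ℂ → ℂ, DifferentiableOn ℂ q (ball 0 1) ∧
    ∀ z ∈ ball (0 : ℂ) 1, p z = ∑ k ∈ range N, c k * z ^ k + z ^ N * q z

theorem Jet.differentiableOn {p : ℂ → ℂ} {c : ℕ → ℂ} {N : ℕ} (h : Jet p c N) :
    DifferentiableOn ℂ p (ball 0 1) := by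
  obtain ⟨q, hq, he⟩ := h
  refine DifferentiableOn.congr ?_ he
  fun_prop

theorem Jet.shift {p : ℂ → ℂ} {c : ℕ → ℂ} {N : ℕ} (h : Jet p c (N + 1)) :
    ∃ q : ℂ → ℂ, DifferentiableOn ℂ q (ball 0 1) ∧ Jet q (fun k => c (k + 1)) N ∧
      ∀ z ∈ ball (0 : ℂ) 1, p z = c 0 + z * q z := by
  obtain ⟨r, hr, he⟩ := h
  refine ⟨fun z => ∑ k ∈ range N, c (k + 1) * z ^ k + z ^ N * r z, by fun_prop,
    ⟨r, hr, fun z _ => rfl⟩, fun z hz => ?_⟩
  rw [he z hz, sum_range_succ', pow_zero, mul_one, mul_add, mul_sum]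
  have : ∀ k ∈ range N, c (k + 1) * z ^ (k + 1) = z * (c (k + 1) * z ^ k) :=
    fun k _ => by ring
  rw [sum_congr rfl this]
  ring

theorem Jet.unique {p : ℂ → ℂ} {c d : ℕ → ℂ} {N : ℕ} (h : Jet p c N) (h' : Jet p d N) :
    ∀ k < N, c k = d k := by
  induction N generalizing p c d with
  | zero => simp
  | succ N ih =>
    obtain ⟨q, hq, hj, he⟩ := h.shift
    obtain ⟨q', hq', hj', he'⟩ := h'.shift
    have h0 : c 0 = d 0 := by
      have a := he 0 (mem_ball_self one_pos)
      have b := he' 0 (mem_ball_self one_pos)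
      simp only [zero_mul, add_zero] at a b
      exact a ▸ b
    have hne : ∀ z ∈ ball (0 : ℂ) 1, z ≠ 0 → q z = q' z := by
      intro z hz hz0
      refine mul_left_cancel₀ hz0 (add_left_cancel (a := c 0) ?_)
      rw [← he z hz, he' z hz, h0]
    have heq : EqOn q q' (ball 0 1) := by
      intro z hz
      by_cases hz0 : z = 0
      · subst hz0
        have hm : ball (0 : ℂ) 1 ∈ nhdsWithin (0 : ℂ) {0}ᶜ :=
          mem_nhdsWithin_of_mem_nhds (isOpen_ball.mem_nhds hz)
        have t := ((hq.differentiableAt (isOpen_ball.mem_nhds hz)).continuousAt.tendsto).mono_left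
          (nhdsWithin_le_nhds (s := {(0 : ℂ)}ᶜ))
        have t' := ((hq'.differentiableAt (isOpen_ball.mem_nhds hz)).continuousAt.tendsto).mono_left
          (nhdsWithin_le_nhds (s := {(0 : ℂ)}ᶜ))
        refine tendsto_nhds_unique t (t'.congr' ?_)
        filter_upwards [hm, self_mem_nhdsWithin] with w hw hw'
        exact (hne w hw hw').symm
      · exact hne z hz hz0
    have hj'' : Jet q (fun k => d (k + 1)) N := by
      obtain ⟨r, hr, her⟩ := hj'
      exact ⟨r, hr, fun z hz => (heq hz).trans (her z hz)⟩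
    intro k hk
    rcases k with - | k
    · exact h0
    · exact ih hj hj'' k (by omega)

theorem jet_taylor {p : ℂ → ℂ} (hp : DifferentiableOn ℂ p (ball 0 1)) (N : ℕ) :
    Jet p (fun k => iteratedDeriv k p 0 / k.factorial) N := by
  have hmem : ball (0 : ℂ) 1 ∈ nhds (0 : ℂ) := ball_mem_nhds 0 one_pos
  have hd : ∀ n, DifferentiableOn ℂ ((Function.swap dslope 0)^[n] p) (ball 0 1) := by
    intro n
    induction n with
    | zero => exact hp
    | succ n ih =>
      rw [Function.iterate_succ_apply']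
      exact (differentiableOn_dslope hmem).2 ih
  have hc : ∀ n, (Function.swap dslope 0)^[n] p 0 = iteratedDeriv n p 0 / n.factorial := by
    intro n
    have hps := (hp.analyticAt hmem).hasFPowerSeriesAt
    rw [← (hps.has_fpower_series_iterate_dslope_fslope n).coeff_zero 1,
      ← FormalMultilinearSeries.coeff, FormalMultilinearSeries.coeff_iterate_fslope,
      zero_add, FormalMultilinearSeries.coeff_ofScalars]
  refine ⟨_, hd N, fun z _ => ?_⟩
  induction N with
  | zero => simp
  | succ N ih =>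
    simp only at ih ⊢
    rw [ih, sum_range_succ, ← hc N, add_assoc, add_right_inj, Function.iterate_succ_apply']
    have h := sub_smul_dslope ((Function.swap dslope 0)^[N] p) 0 z
    simp only [sub_zero, smul_eq_mul] at h
    simp only [Function.swap]
    linear_combination (-(z ^ N)) * h

theorem Jet.sub_mul_deriv {p : ℂ → ℂ} {c : ℕ → ℂ} {N : ℕ} (h : Jet p c N) :
    Jet (fun z => p z - z * deriv p z) (fun k => (1 - (k : ℂ)) * c k) N := by
  obtain ⟨q, hq, he⟩ := h
  refine ⟨fun z => (1 - (N : ℂ)) * q z - z * deriv q z,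
    by have := hq.deriv isOpen_ball; fun_prop, fun z hz => ?_⟩
  have hev : p =ᶠ[nhds z] fun w => ∑ k ∈ range N, c k * w ^ k + w ^ N * q w :=
    Filter.eventually_of_mem (isOpen_ball.mem_nhds hz) he
  have hqz : DifferentiableAt ℂ q z := hq.differentiableAt (isOpen_ball.mem_nhds hz)
  have hD : HasDerivAt (fun w => ∑ k ∈ range N, c k * w ^ k + w ^ N * q w)
      (∑ k ∈ range N, c k * ((k : ℂ) * z ^ (k - 1)) +
        ((N : ℂ) * z ^ (N - 1) * q z + z ^ N * deriv q z)) z := by
    refine HasDerivAt.add ?_ ((hasDerivAt_pow N z).mul hqz.hasDerivAt)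
    simpa using HasDerivAt.fun_sum
      (u := range N) (fun k _ => (hasDerivAt_pow k z).const_mul (c k))
  have key : ∀ k : ℕ, z * ((k : ℂ) * z ^ (k - 1)) = (k : ℂ) * z ^ k := by
    intro k; rcases k with - | k
    · simp
    · rw [Nat.add_sub_cancel]; ring
  simp only
  rw [hev.deriv_eq, hD.deriv, he z hz, mul_add, mul_sum]
  have e : ∀ k ∈ range N, (1 - (k : ℂ)) * c k * z ^ k =
      c k * z ^ k - z * (c k * ((k : ℂ) * z ^ (k - 1))) := by
    intro k _; linear_combination (c k) * key k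
  rw [sum_congr rfl e, sum_sub_distrib]
  linear_combination (-q z) * key N

end Vale.Agent.P142J
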