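import Mathlib
import Vale.Agent.P142J.AreaJet

/-!
# Mean squares on circles, and injective holomorphic maps have nonzero derivative
-/

namespace Vale.Agent.P142J

open Complex Metric Set MeasureTheory
open scoped Real ComplexConjugate Topology

theorem continuous_circleMap_comp {p : ℂ → ℂ} (hp : DifferentiableOn ℂ p (ball 0 1))
    {s : ℝ} (hs : 0 ≤ s) (hs1 : s < 1) : Continuous fun θ => p (circleMap 0 s θ) :=
  hp.continuousOn.comp_continuous (continuous_circleMap 0 s) fun θ => by
    rw [mem_ball_zero_iff, norm_circleMap_zero, abs_of_nonneg hs]; exact hs1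

theorem integral_re_conj_mul_eq_zero {p : ℂ → ℂ} (hp : DifferentiableOn ℂ p (ball 0 1))
    {s : ℝ} (hs : 0 ≤ s) (hs1 : s < 1) (a : ℂ) :
    ∫ θ in (-π)..π, (conj a * (circleMap 0 s θ * p (circleMap 0 s θ))).re = 0 := by
  have hd : DiffContOnCl ℂ (fun z => z * p z) (ball 0 |s|) := by
    refine DifferentiableOn.diffContOnCl ?_
    refine DifferentiableOn.mono (t := closedBall (0 : ℂ) |s|) ?_ closure_ball_subset_closedBall
    refine (DifferentiableOn.mono ?_ (closedBall_subset_ball (ε₂ := 1) ?_))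
    · fun_prop
    · rw [abs_of_nonneg hs]; exact hs1
  have h := hd.circleAverage
  rw [Real.circleAverage_def, zero_mul, smul_eq_zero] at h
  replace h := h.resolve_left (by positivity)
  have hper : Function.Periodic (fun θ => circleMap 0 s θ * p (circleMap 0 s θ)) (2 * π) :=
    fun θ => by simp [periodic_circleMap 0 s θ]
  have hc : Continuous fun θ => circleMap 0 s θ * p (circleMap 0 s θ) :=
    (continuous_circleMap 0 s).mul (continuous_circleMap_comp hp hs hs1)
  have h2 : ∫ θ in (-π)..π, circleMap 0 s θ * p (circleMap 0 s θ) = 0 := by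
    have := hper.intervalIntegral_add_eq (-π) 0
    rw [show -π + 2 * π = π by ring, zero_add] at this
    rw [this]; exact h
  have h3 : ∫ θ in (-π)..π, Complex.reCLM (conj a * (circleMap 0 s θ * p (circleMap 0 s θ))) =
      Complex.reCLM (∫ θ in (-π)..π, conj a * (circleMap 0 s θ * p (circleMap 0 s θ))) :=
    Complex.reCLM.intervalIntegral_comp_comm ((hc.const_smul (conj a)).intervalIntegrable _ _)
  simp only [Complex.reCLM_apply] at h3
  rw [h3, intervalIntegral.integral_const_mul, h2]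
  simp

theorem mean_sq_ge {N : ℕ} {p : ℂ → ℂ} {d : ℕ → ℂ} (h : Jet p d N)
    {s : ℝ} (hs : 0 ≤ s) (hs1 : s < 1) :
    2 * π * ∑ k ∈ Finset.range N, ‖d k‖ ^ 2 * s ^ (2 * k) ≤
      ∫ θ in (-π)..π, ‖p (circleMap 0 s θ)‖ ^ 2 := by
  induction N generalizing p d with
  | zero =>
    simp only [Finset.range_zero, Finset.sum_empty, mul_zero]
    exact intervalIntegral.integral_nonneg (by linarith [Real.pi_pos]) fun θ _ => by positivity
  | succ N ih =>
    obtain ⟨q, hq, hj, he⟩ := h.shift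
    have hz : ∀ θ : ℝ, circleMap 0 s θ ∈ ball (0 : ℂ) 1 := fun θ => by
      rw [mem_ball_zero_iff, norm_circleMap_zero, abs_of_nonneg hs]; exact hs1
    have e : ∀ θ : ℝ, ‖p (circleMap 0 s θ)‖ ^ 2 = (‖d 0‖ ^ 2 +
        2 * (conj (d 0) * (circleMap 0 s θ * q (circleMap 0 s θ))).re) +
        s ^ 2 * ‖q (circleMap 0 s θ)‖ ^ 2 := by
      intro θ
      have hn : ‖circleMap 0 s θ * q (circleMap 0 s θ)‖ ^ 2 =
          s ^ 2 * ‖q (circleMap 0 s θ)‖ ^ 2 := by
        rw [norm_mul, norm_circleMap_zero, abs_of_nonneg hs, mul_pow]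
      rw [he _ (hz θ), ← hn]
      generalize circleMap 0 s θ * q (circleMap 0 s θ) = w
      simp only [← Complex.normSq_eq_norm_sq, Complex.normSq_apply, Complex.add_re,
        Complex.add_im, Complex.mul_re, Complex.conj_re, Complex.conj_im]
      ring
    have cq : Continuous fun θ => q (circleMap 0 s θ) := continuous_circleMap_comp hq hs hs1
    have cz : Continuous fun θ => circleMap 0 s θ := continuous_circleMap 0 s
    have cr : Continuous fun θ => (conj (d 0) * (circleMap 0 s θ * q (circleMap 0 s θ))).re :=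
      Complex.continuous_re.comp (continuous_const.mul (cz.mul cq))
    have cw : Continuous fun θ =>
        2 * (conj (d 0) * (circleMap 0 s θ * q (circleMap 0 s θ))).re := continuous_const.mul cr
    have c1 : Continuous fun θ => ‖d 0‖ ^ 2 +
        2 * (conj (d 0) * (circleMap 0 s θ * q (circleMap 0 s θ))).re := continuous_const.add cw
    have c2 : Continuous fun θ => s ^ 2 * ‖q (circleMap 0 s θ)‖ ^ 2 :=
      continuous_const.mul (cq.norm.pow 2)
    rw [intervalIntegral.integral_congr (fun θ _ => e θ),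
      intervalIntegral.integral_add (c1.intervalIntegrable _ _) (c2.intervalIntegrable _ _),
      intervalIntegral.integral_add intervalIntegrable_const (cw.intervalIntegrable _ _),
      intervalIntegral.integral_const_mul, intervalIntegral.integral_const_mul,
      integral_re_conj_mul_eq_zero hq hs hs1, intervalIntegral.integral_const, Finset.sum_range_succ']
    have hih := mul_le_mul_of_nonneg_left (ih hj) (sq_nonneg s)
    simp only [Finset.mul_sum] at hih ⊢
    have : ∀ k ∈ Finset.range N, 2 * π * (‖d (k + 1)‖ ^ 2 * s ^ (2 * (k + 1))) =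
        s ^ 2 * (2 * π * (‖d (k + 1)‖ ^ 2 * s ^ (2 * k))) := fun k _ => by ring
    rw [mul_add, Finset.mul_sum, Finset.sum_congr rfl this, smul_eq_mul]
    simp only [mul_zero, pow_zero, mul_one, add_zero]
    linarith

theorem deriv_ne_zero_of_injOn {U : Set ℂ} (hU : IsOpen U) {f : ℂ → ℂ}
    (hf : DifferentiableOn ℂ f U) (hinj : InjOn f U) {z₀ : ℂ} (hz : z₀ ∈ U) :
    deriv f z₀ ≠ 0 := by
  intro h0
  set F : ℂ → ℂ := fun z => f z - f z₀ with hF
  have hUn : U ∈ 𝓝 z₀ := hU.mem_nhds hz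
  have hFa : AnalyticAt ℂ F z₀ := (hf.analyticAt hUn).sub analyticAt_const
  have hnz : ¬ ∀ᶠ z in 𝓝 z₀, F z = 0 := by
    intro hev
    have : ∀ᶠ z in 𝓝[≠] z₀, z ∈ U ∧ F z = 0 ∧ z ≠ z₀ := by
      rw [eventually_nhdsWithin_iff]
      filter_upwards [hev, hUn] with z a b c using ⟨b, a, c⟩
    obtain ⟨z, hzU, hzF, hne⟩ := this.exists
    exact hne (hinj hzU hz (sub_eq_zero.1 hzF))
  obtain ⟨k, g, hg, hg0, hev⟩ := hFa.exists_eventuallyEq_pow_smul_nonzero_iff.2 hnz
  simp only [smul_eq_mul] at hev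
  have hF0 : F z₀ = 0 := sub_self _
  have hFd : deriv F z₀ = 0 := by rw [hF, deriv_sub_const]; exact h0
  have hk2 : 2 ≤ k := by
    by_contra hk
    interval_cases k
    · have := hev.self_of_nhds
      simp [hF0] at this
      exact hg0 this.symm
    · have hd : HasDerivAt (fun z => (z - z₀) ^ 1 * g z) (g z₀) z₀ := by
        simpa using (((hasDerivAt_id' z₀).sub_const z₀).fun_mul
          hg.differentiableAt.hasDerivAt)
      have hev' : F =ᶠ[𝓝 z₀] fun z => (z - z₀) ^ 1 * g z := hev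
      rw [hev'.deriv_eq, hd.deriv] at hFd
      exact hg0 hFd
  have hkne : k ≠ 0 := by omega
  set φ : ℂ → ℂ := fun z => (z - z₀) * (g z / g z₀) ^ ((k : ℂ)⁻¹) with hφ
  have hφa : AnalyticAt ℂ φ z₀ := by
    refine (analyticAt_id.sub analyticAt_const).mul
      ((hg.div analyticAt_const hg0).cpow analyticAt_const ?_)
    simp [div_self hg0, Complex.one_mem_slitPlane]
  have hφd : deriv φ z₀ = 1 := by
    have hr : DifferentiableAt ℂ (fun z => (g z / g z₀) ^ ((k : ℂ)⁻¹)) z₀ :=
      ((hg.div analyticAt_const hg0).cpow analyticAt_const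
        (by simp [div_self hg0, Complex.one_mem_slitPlane])).differentiableAt
    have := (((hasDerivAt_id' z₀).sub_const z₀).fun_mul hr.hasDerivAt).deriv
    rw [hφ, this]
    simp [div_self hg0]
  have hstr := hφa.hasStrictDerivAt
  rw [hφd] at hstr
  have hmap := hstr.map_nhds_eq one_ne_zero
  have hφ0 : φ z₀ = 0 := by simp [hφ]
  rw [hφ0] at hmap
  have hV : φ '' (U ∩ {z | F z = (z - z₀) ^ k * g z}) ∈ 𝓝 (0 : ℂ) := by
    rw [← hmap]
    exact Filter.image_mem_map (Filter.inter_mem hUn hev)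
  obtain ⟨ε, hε, hball⟩ := Metric.mem_nhds_iff.1 hV
  set ω : ℂ := exp (2 * π * I / k) with hω
  have hωp := Complex.isPrimitiveRoot_exp k hkne
  rw [← hω] at hωp
  have hωn : ‖ω‖ = 1 := hωp.norm'_eq_one hkne
  set w : ℂ := ((ε / 2 : ℝ) : ℂ) with hw
  have hwn : ‖w‖ = ε / 2 := by rw [hw, norm_real, Real.norm_of_nonneg (by linarith)]
  obtain ⟨z₁, ⟨hz₁, he₁⟩, hw₁⟩ := hball (mem_ball_zero_iff.2 (by rw [hwn]; linarith) : w ∈ ball 0 ε)
  obtain ⟨z₂, ⟨hz₂, he₂⟩, hw₂⟩ := hball
    (mem_ball_zero_iff.2 (by rw [norm_mul, hωn, hwn]; linarith) : ω * w ∈ ball 0 ε)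
  have key : ∀ z, F z = (z - z₀) ^ k * g z → F z = g z₀ * φ z ^ k := by
    intro z he
    rw [he, hφ]
    simp only [mul_pow, cpow_nat_inv_pow _ hkne]
    field_simp
  have hFF : F z₁ = F z₂ := by
    rw [key z₁ he₁, key z₂ he₂, hw₁, hw₂, mul_pow, hωp.pow_eq_one, one_mul]
  have h12 : z₁ = z₂ := hinj hz₁ hz₂ (by simpa [hF] using hFF)
  rw [h12, hw₂] at hw₁
  have hwne : w ≠ 0 := by rw [← norm_ne_zero_iff, hwn]; linarith
  exact hωp.ne_one (by omega) (mul_eq_right₀ hwne |>.1 hw₁)

end Vale.Agent.P142J
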