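import Mathlib
import Vale.Agent.P142J.AreaJet
import Vale.Agent.P142J.AreaMean

/-!
# The area theorem for exterior maps `ζ ↦ ζ * h ζ⁻¹`
-/

namespace Vale.Agent.P142J

open Complex Metric Set MeasureTheory Filter
open scoped Real ComplexConjugate Topology ENNReal

/-- The real linear map `u ↦ u + κ * conj u`. -/
noncomputable def Lmap (κ : ℂ) : ℂ →ₗ[ℝ] ℂ where
  toFun u := u + κ * conj u
  map_add' u v := by rw [map_add]; ring
  map_smul' r u := by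
    simp only [Complex.real_smul, map_mul, Complex.conj_ofReal, RingHom.id_apply]; ring

/-- Its inverse when `‖κ‖ < 1`. -/
noncomputable def Linv (κ e : ℂ) : ℂ := (e - κ * conj e) / (1 - κ * conj κ)

theorem one_sub_mul_conj (κ : ℂ) : 1 - κ * conj κ = ((1 - ‖κ‖ ^ 2 : ℝ) : ℂ) := by
  rw [Complex.mul_conj, Complex.normSq_eq_norm_sq]; push_cast; rfl

theorem one_sub_mul_conj_ne {κ : ℂ} (h : ‖κ‖ ≤ 1 / 2) : 1 - κ * conj κ ≠ 0 := by
  rw [one_sub_mul_conj, Complex.ofReal_ne_zero]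
  nlinarith [norm_nonneg κ]

theorem Lmap_Linv {κ : ℂ} (h : ‖κ‖ ≤ 1 / 2) (e : ℂ) : Lmap κ (Linv κ e) = e := by
  have h1 := one_sub_mul_conj_ne h
  have h2 : 1 - conj κ * κ ≠ 0 := by rwa [mul_comm]
  simp only [Lmap, LinearMap.coe_mk, AddHom.coe_mk, Linv, map_div₀, map_sub, map_mul, map_one,
    Complex.conj_conj]
  field_simp
  ring

theorem Linv_Lmap {κ : ℂ} (h : ‖κ‖ ≤ 1 / 2) (u : ℂ) : Linv κ (Lmap κ u) = u := by
  have h1 := one_sub_mul_conj_ne h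
  simp only [Lmap, LinearMap.coe_mk, AddHom.coe_mk, Linv, map_add, map_mul, Complex.conj_conj]
  field_simp
  ring

theorem norm_Linv_le {κ : ℂ} (h : ‖κ‖ ≤ 1 / 2) (e : ℂ) : ‖Linv κ e‖ ≤ 2 * ‖e‖ := by
  have hpos : 3 / 4 ≤ 1 - ‖κ‖ ^ 2 := by nlinarith [norm_nonneg κ]
  rw [Linv, norm_div, one_sub_mul_conj, Complex.norm_real, Real.norm_of_nonneg (by linarith),
    div_le_iff₀ (by linarith)]
  have h2 : ‖e - κ * conj e‖ ≤ ‖e‖ + ‖κ‖ * ‖e‖ := by
    refine (norm_sub_le _ _).trans ?_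
    rw [norm_mul, RCLike.norm_conj]
  nlinarith [norm_nonneg e]

theorem norm_Lmap_le {κ : ℂ} (h : ‖κ‖ ≤ 1 / 2) (u : ℂ) : ‖Lmap κ u‖ ≤ 2 * ‖u‖ := by
  simp only [Lmap, LinearMap.coe_mk, AddHom.coe_mk]
  refine (norm_add_le _ _).trans ?_
  rw [norm_mul, RCLike.norm_conj]
  nlinarith [norm_nonneg u]

theorem abs_det_Lmap_le {κ : ℂ} (h : ‖κ‖ ≤ 1 / 2) : |LinearMap.det (Lmap κ)| ≤ 1 := by
  have hd : LinearMap.det (Lmap κ) = 1 - (κ.re ^ 2 + κ.im ^ 2) := by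
    rw [← LinearMap.det_toMatrix Complex.basisOneI, Matrix.det_fin_two]
    simp [LinearMap.toMatrix_apply, Lmap, Complex.coe_basisOneI, Complex.coe_basisOneI_repr]
    ring
  have he : κ.re ^ 2 + κ.im ^ 2 = ‖κ‖ ^ 2 := by
    rw [← Complex.normSq_eq_norm_sq, Complex.normSq_apply]; ring
  rw [hd, he, abs_le]
  constructor <;> nlinarith [norm_nonneg κ]

theorem isPreconnected_norm_gt {R : ℝ} (hR : 0 ≤ R) : IsPreconnected {u : ℂ | R < ‖u‖} := by
  have : {u : ℂ | R < ‖u‖} =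
      (fun x : ℝ × ℝ => (x.1 : ℂ) * exp (x.2 * I)) '' (Ioi R ×ˢ univ) := by
    ext u
    simp only [mem_ofPred_eq, mem_image, mem_prod, mem_Ioi, mem_univ, and_true, Prod.exists]
    constructor
    · intro hu; exact ⟨‖u‖, arg u, hu, norm_mul_exp_arg_mul_I u⟩
    · rintro ⟨a, b, ha, rfl⟩
      rw [norm_mul, norm_exp_ofReal_mul_I, mul_one, norm_real, Real.norm_of_nonneg (by linarith)]
      exact ha
  rw [this]
  exact (isPreconnected_Ioi.prod isPreconnected_univ).image _ (by fun_prop)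

variable {h : ℂ → ℂ}

theorem isOpen_norm_gt (R : ℝ) : IsOpen {ζ : ℂ | R < ‖ζ‖} :=
  isOpen_lt continuous_const continuous_norm

theorem inv_mem_ball {ζ : ℂ} (hζ : 1 < ‖ζ‖) : ζ⁻¹ ∈ ball (0 : ℂ) 1 := by
  rw [mem_ball_zero_iff, norm_inv]
  exact inv_lt_one_of_one_lt₀ hζ

theorem hasDerivAt_ext (hh : DifferentiableOn ℂ h (ball 0 1)) {ζ : ℂ} (hζ : 1 < ‖ζ‖) :
    HasDerivAt (fun ζ => ζ * h ζ⁻¹) (h ζ⁻¹ - ζ⁻¹ * deriv h ζ⁻¹) ζ := by
  have h0 : ζ ≠ 0 := by intro e; rw [e, norm_zero] at hζ; linarith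
  have hd := (hh.differentiableAt (isOpen_ball.mem_nhds (inv_mem_ball hζ))).hasDerivAt.comp ζ
    (hasDerivAt_inv h0)
  refine ((hasDerivAt_id' ζ).mul hd).congr_deriv ?_
  simp only [Function.comp_apply]
  field_simp
  ring

theorem differentiableOn_ext (hh : DifferentiableOn ℂ h (ball 0 1)) :
    DifferentiableOn ℂ (fun ζ => ζ * h ζ⁻¹) {ζ | 1 < ‖ζ‖} :=
  fun _ hζ => (hasDerivAt_ext hh hζ).differentiableAt.differentiableWithinAt

theorem continuousOn_ext_deriv (hh : DifferentiableOn ℂ h (ball 0 1)) :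
    ContinuousOn (fun ζ => h ζ⁻¹ - ζ⁻¹ * deriv h ζ⁻¹) {ζ : ℂ | 1 < ‖ζ‖} := by
  have hp : ContinuousOn (fun w => h w - w * deriv h w) (ball 0 1) := by
    have := hh.deriv isOpen_ball
    exact (DifferentiableOn.continuousOn (by fun_prop))
  refine hp.comp (fun ζ hζ => (continuousAt_inv₀ ?_).continuousWithinAt) fun ζ hζ => inv_mem_ball hζ
  intro e; simp only [mem_ofPred_eq, e, norm_zero] at hζ; linarith

theorem polar_inv (r θ : ℝ) :
    (Complex.polarCoord.symm (r, θ))⁻¹ = circleMap 0 r⁻¹ (-θ) := by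
  rw [Complex.polarCoord_symm_apply, circleMap_zero]
  push_cast
  rw [← Complex.exp_mul_I, mul_inv, ← Complex.exp_neg]
  ring_nf

theorem norm_circle_inv (r θ : ℝ) (hr : 1 < r) : circleMap 0 r⁻¹ θ ∈ ball (0 : ℂ) 1 := by
  rw [mem_ball_zero_iff, norm_circleMap_zero, abs_of_pos (by positivity)]
  exact inv_lt_one_of_one_lt₀ hr

theorem integral_le_volume (hh : DifferentiableOn ℂ h (ball 0 1))
    (hinj : InjOn (fun ζ => ζ * h ζ⁻¹) {ζ | 1 < ‖ζ‖}) {ρ R : ℝ} (hρ : 1 < ρ) {f : ℝ → ℝ}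
    (hf : ContinuousOn f (Icc ρ R)) (hf0 : ∀ r ∈ Icc ρ R, 0 ≤ f r)
    (hle : ∀ r ∈ Ioo ρ R, f r ≤ r * ∫ θ in (-π)..π,
      ‖h (circleMap 0 r⁻¹ θ) - circleMap 0 r⁻¹ θ * deriv h (circleMap 0 r⁻¹ θ)‖ ^ 2) :
    ENNReal.ofReal (∫ r in Ioo ρ R, f r) ≤
      volume ((fun ζ => ζ * h ζ⁻¹) '' {ζ : ℂ | ρ < ‖ζ‖ ∧ ‖ζ‖ < R}) := by
  set A : Set ℂ := {ζ : ℂ | ρ < ‖ζ‖ ∧ ‖ζ‖ < R} with hA
  set φ : ℂ → ℝ := fun ζ => ‖h ζ⁻¹ - ζ⁻¹ * deriv h ζ⁻¹‖ ^ 2 with hφ
  have hAm : MeasurableSet A :=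
    ((isOpen_norm_gt ρ).inter (isOpen_lt continuous_norm continuous_const)).measurableSet
  have hAs : A ⊆ {ζ | 1 < ‖ζ‖} := fun ζ hζ => lt_trans hρ hζ.1
  have hd : ∀ ζ ∈ A, HasFDerivWithinAt (fun ζ => ζ * h ζ⁻¹)
      ((ContinuousLinearMap.toSpanSingleton ℂ (h ζ⁻¹ - ζ⁻¹ * deriv h ζ⁻¹)).restrictScalars ℝ) A ζ :=
    fun ζ hζ => ((hasDerivAt_ext hh (hAs hζ)).hasFDerivAt.restrictScalars ℝ).hasFDerivWithinAt
  rw [← lintegral_abs_det_fderiv_eq_addHaar_image volume hAm hd (hinj.mono hAs)]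
  have hdet : ∀ a : ℂ,
      |((ContinuousLinearMap.toSpanSingleton ℂ a).restrictScalars ℝ).det| = ‖a‖ ^ 2 := by
    intro a
    simp [ContinuousLinearMap.det, LinearMap.det_restrictScalars, Algebra.norm_complex_eq,
      Complex.normSq_eq_norm_sq]
  simp only [hdet]
  rw [← lintegral_indicator hAm, ← Complex.lintegral_comp_polarCoord_symm]
  have hsub : Ioo ρ R ×ˢ Ioo (-π) π ⊆ _root_.polarCoord.target :=
    Set.prod_mono (fun r hr => lt_trans (by linarith : (0 : ℝ) < ρ) hr.1) subset_rfl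
  refine le_trans ?_ (lintegral_mono_set hsub)
  have hmS : MeasurableSet (Ioo ρ R ×ˢ Ioo (-π) π) := measurableSet_Ioo.prod measurableSet_Ioo
  set Φ : ℝ × ℝ → ℝ := fun x => x.1 * ‖h (circleMap 0 x.1⁻¹ (-x.2)) -
      circleMap 0 x.1⁻¹ (-x.2) * deriv h (circleMap 0 x.1⁻¹ (-x.2))‖ ^ 2 with hΦ
  have heq : EqOn (fun x : ℝ × ℝ => ENNReal.ofReal x.1 • A.indicator
      (fun ζ => ENNReal.ofReal (‖h ζ⁻¹ - ζ⁻¹ * deriv h ζ⁻¹‖ ^ 2)) (Complex.polarCoord.symm x))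
      (fun x => ENNReal.ofReal (Φ x)) (Ioo ρ R ×ˢ Ioo (-π) π) := by
    rintro ⟨r, θ⟩ ⟨hr, -⟩
    have hr0 : 0 < r := by linarith [hr.1]
    have hmem : Complex.polarCoord.symm (r, θ) ∈ A := by
      simp only [hA, mem_ofPred_eq, Complex.norm_polarCoord_symm, abs_of_pos hr0]
      exact hr
    simp only [indicator_of_mem hmem, polar_inv, smul_eq_mul, hΦ]
    rw [ENNReal.ofReal_mul hr0.le]
  rw [setLIntegral_congr_fun hmS heq]
  have hp : ContinuousOn (fun w => h w - w * deriv h w) (ball 0 1) := by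
    have := hh.deriv isOpen_ball
    exact (DifferentiableOn.continuousOn (by fun_prop))
  have hc : ContinuousOn Φ (Ioi 1 ×ˢ univ) := by
    refine continuousOn_fst.mul ((ContinuousOn.norm ?_).pow 2)
    refine hp.comp (t := ball (0 : ℂ) 1) ?_ fun x hx => norm_circle_inv _ _ hx.1
    have hne : ∀ x ∈ Ioi (1 : ℝ) ×ˢ (univ : Set ℝ), x.1 ≠ 0 := fun x hx => by
      have := hx.1; simp only [mem_Ioi] at this; linarith
    simp only [circleMap_zero]
    refine ContinuousOn.mul (Complex.continuous_ofReal.comp_continuousOn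
      (continuousOn_fst.inv₀ hne)) (Continuous.continuousOn (by fun_prop))
  have hS : Ioo ρ R ×ˢ Ioo (-π) π ⊆ Ioi 1 ×ˢ univ :=
    Set.prod_mono (fun r hr => lt_trans hρ hr.1) (subset_univ _)
  rw [Measure.volume_eq_prod, ← Measure.prod_restrict, lintegral_prod]
  swap
  · rw [Measure.prod_restrict, ← Measure.volume_eq_prod]
    exact ((hc.mono hS).aemeasurable hmS).ennreal_ofReal
  rw [ofReal_integral_eq_lintegral_ofReal
    ((hf.integrableOn_compact isCompact_Icc).mono_set Ioo_subset_Icc_self)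
    (ae_restrict_of_forall_mem measurableSet_Ioo fun r hr => hf0 r (Ioo_subset_Icc_self hr))]
  refine setLIntegral_mono' measurableSet_Ioo fun r hr => ?_
  have hr1 : 1 < r := lt_trans hρ hr.1
  have hcr : Continuous fun θ => Φ (r, θ) :=
    hc.comp_continuous (by fun_prop) fun θ => ⟨hr1, mem_univ _⟩
  have hint : IntegrableOn (fun θ => Φ (r, θ)) (Ioo (-π) π) :=
    (hcr.integrableOn_Icc (a := -π) (b := π)).mono_set Ioo_subset_Icc_self
  rw [← ofReal_integral_eq_lintegral_ofReal hint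
    (Eventually.of_forall fun θ => mul_nonneg (by linarith) (sq_nonneg _))]
  refine ENNReal.ofReal_le_ofReal ((hle r hr).trans (le_of_eq ?_))
  rw [← integral_Ioc_eq_integral_Ioo, ← intervalIntegral.integral_of_le (by linarith [Real.pi_pos])]
  simp only [hΦ]
  rw [intervalIntegral.integral_const_mul]
  congr 1
  have hneg := intervalIntegral.integral_comp_neg (a := -π) (b := π) (fun θ : ℝ =>
    ‖h (circleMap 0 r⁻¹ θ) - circleMap 0 r⁻¹ θ * deriv h (circleMap 0 r⁻¹ θ)‖ ^ 2)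
  rw [neg_neg] at hneg
  exact hneg.symm

theorem volume_image_le (hh : DifferentiableOn ℂ h (ball 0 1))
    (hinj : InjOn (fun ζ => ζ * h ζ⁻¹) {ζ | 1 < ‖ζ‖}) {c1 c2 : ℂ} {q : ℂ → ℂ} {C : ℝ}
    (hexp : ∀ z ∈ ball (0 : ℂ) 1, h z = 1 + z * (c1 + z * (c2 + z * q z)))
    (hq : ∀ z : ℂ, ‖z‖ ≤ 1 / 2 → ‖q z‖ ≤ C) {ρ R : ℝ} (hρ : 1 < ρ) (hR : 2 ≤ R)
    (hκ : ‖c2‖ / R ^ 2 ≤ 1 / 2) :
    volume ((fun ζ => ζ * h ζ⁻¹) '' {ζ : ℂ | ρ < ‖ζ‖ ∧ ‖ζ‖ < R}) ≤
      ENNReal.ofReal (π * (R + 2 * C / R ^ 2) ^ 2) := by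
  set G : ℂ → ℂ := fun ζ => ζ * h ζ⁻¹ with hG
  have hC : 0 ≤ C := (norm_nonneg _).trans (hq 0 (by simp))
  set κ : ℂ := c2 / ((R ^ 2 : ℝ) : ℂ) with hκdef
  have hκn : ‖κ‖ ≤ 1 / 2 := by
    rwa [hκdef, norm_div, norm_real, Real.norm_of_nonneg (by positivity)]
  set R' : ℝ := R + 2 * C / R ^ 2 with hR'
  have hR'0 : 0 ≤ R' := by positivity
  -- expansion at infinity
  have hE : ∀ ζ : ℂ, 2 ≤ ‖ζ‖ → G ζ = ζ + c1 + c2 / ζ + q ζ⁻¹ / ζ ^ 2 ∧
      ‖q ζ⁻¹ / ζ ^ 2‖ ≤ C / ‖ζ‖ ^ 2 := by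
    intro ζ hζ
    have h0 : ζ ≠ 0 := by intro e; rw [e, norm_zero] at hζ; linarith
    refine ⟨?_, ?_⟩
    · simp only [hG]
      rw [hexp _ (inv_mem_ball (by linarith))]
      field_simp
      ring
    · rw [norm_div, norm_pow]
      gcongr
      refine hq _ ?_
      rw [norm_inv, one_div]
      exact inv_anti₀ two_pos hζ
  set V : Set ℂ := G '' {ζ | R < ‖ζ‖} with hV
  set Ω : Set ℂ := (fun u => c1 + Lmap κ u) '' {u | R' < ‖u‖} with hΩ
  have hsub1 : {ζ : ℂ | R < ‖ζ‖} ⊆ {ζ | 1 < ‖ζ‖} := fun ζ hζ =>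
    lt_trans (by linarith : (1 : ℝ) < R) hζ
  have hVo : IsOpen V := by
    rw [isOpen_iff_mem_nhds]
    rintro _ ⟨ζ, hζ, rfl⟩
    have hUn : {ζ : ℂ | R < ‖ζ‖} ∈ 𝓝 ζ := (isOpen_norm_gt R).mem_nhds hζ
    have hs := (((differentiableOn_ext hh).mono hsub1).analyticAt hUn).hasStrictDerivAt
    have hne := deriv_ne_zero_of_injOn (isOpen_norm_gt R) ((differentiableOn_ext hh).mono hsub1)
      (hinj.mono hsub1) hζ
    rw [← hs.map_nhds_eq hne]
    exact image_mem_map hUn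
  have hcirc : ∀ ζ : ℂ, ‖ζ‖ = R → G ζ ∉ Ω := by
    rintro ζ hζ ⟨u, hu, hue⟩
    obtain ⟨he, hb⟩ := hE ζ (by linarith)
    have h0 : ζ ≠ 0 := by intro e; rw [e, norm_zero] at hζ; linarith
    have hL : Lmap κ (ζ + Linv κ (q ζ⁻¹ / ζ ^ 2)) = Lmap κ u := by
      rw [map_add, Lmap_Linv hκn]
      have : Lmap κ ζ = ζ + c2 / ζ := by
        simp only [Lmap, LinearMap.coe_mk, AddHom.coe_mk, hκdef]
        rw [← hζ, ← Complex.normSq_eq_norm_sq, ← Complex.mul_conj]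
        have : conj ζ ≠ 0 := by simpa using h0
        field_simp
      rw [this]
      have hue' : c1 + Lmap κ u = G ζ := hue
      rw [he] at hue'
      linear_combination -hue'
    have hu' := congrArg (Linv κ) hL
    rw [Linv_Lmap hκn, Linv_Lmap hκn] at hu'
    rw [← hu'] at hu
    have hv := norm_Linv_le hκn (q ζ⁻¹ / ζ ^ 2)
    rw [hζ] at hb
    have : ‖ζ + Linv κ (q ζ⁻¹ / ζ ^ 2)‖ ≤ R' := by
      refine (norm_add_le _ _).trans ?_
      rw [hR', hζ, mul_div_assoc]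
      linarith
    simp only [mem_ofPred_eq] at hu
    linarith
  set B : ℝ := ‖c1‖ + ‖c2‖ + C with hB
  have hlow : ∀ ζ : ℂ, 2 ≤ ‖ζ‖ → ‖ζ‖ - B ≤ ‖G ζ‖ := by
    intro ζ hζ
    obtain ⟨he, hb⟩ := hE ζ hζ
    have h1 : ‖ζ‖ ≤ ‖G ζ‖ + ‖c1 + c2 / ζ + q ζ⁻¹ / ζ ^ 2‖ := by
      have : ζ = G ζ - (c1 + c2 / ζ + q ζ⁻¹ / ζ ^ 2) := by rw [he]; ring
      conv_lhs => rw [this]
      exact norm_sub_le _ _
    have h2 : ‖c2 / ζ‖ ≤ ‖c2‖ := by
      rw [norm_div]; exact div_le_self (norm_nonneg _) (by linarith)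
    have h3 : C / ‖ζ‖ ^ 2 ≤ C := div_le_self hC (by nlinarith)
    have := norm_add₃_le (a := c1) (b := c2 / ζ) (c := q ζ⁻¹ / ζ ^ 2)
    linarith
  have hcl : closure V ∩ Ω ⊆ V := by
    rintro w ⟨hw, hwΩ⟩
    obtain ⟨x, hx, hxw⟩ := mem_closure_iff_seq_limit.1 hw
    choose ζs hζs hζe using hx
    obtain ⟨D, hD⟩ := isBounded_iff_forall_norm_le.1 (Metric.isBounded_range_of_tendsto _ hxw)
    have hK : ∀ n, ζs n ∈ closedBall (0 : ℂ) (D + B) ∩ {ζ | R ≤ ‖ζ‖} := fun n => by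
      refine ⟨?_, le_of_lt (α := ℝ) (hζs n)⟩
      rw [mem_closedBall_zero_iff]
      have := hlow (ζs n) (le_trans hR (le_of_lt (α := ℝ) (hζs n)))
      rw [hζe n] at this
      linarith [hD _ (mem_range_self n)]
    obtain ⟨ζ, hζK, ψ, hψ, hlim⟩ := ((isCompact_closedBall (0 : ℂ) (D + B)).inter_right
      (isClosed_le continuous_const continuous_norm)).tendsto_subseq hK
    have hζ1 : (1 : ℝ) < ‖ζ‖ := lt_of_lt_of_le (by linarith) hζK.2
    have hGw : G ζ = w := by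
      refine tendsto_nhds_unique ((hasDerivAt_ext hh hζ1).continuousAt.tendsto.comp hlim) ?_
      refine (hxw.comp hψ.tendsto_atTop).congr fun n => ?_
      simp only [Function.comp_apply]
      exact (hζe _).symm
    rcases eq_or_lt_of_le (α := ℝ) hζK.2 with e | e
    · exact absurd (hGw ▸ hwΩ) (hcirc ζ e.symm)
    · exact ⟨ζ, e, hGw⟩
  have hne : (Ω ∩ V).Nonempty := by
    set T : ℝ := R + 2 * R' + 2 * B + 1 with hT
    have hB0 : 0 ≤ B := by positivity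
    have hTn : ‖(T : ℂ)‖ = T := by rw [norm_real, Real.norm_of_nonneg (by linarith)]
    refine ⟨G T, ⟨Linv κ (G T - c1), ?_, ?_⟩, ⟨(T : ℂ), ?_, rfl⟩⟩
    · have h1 := hlow (T : ℂ) (by rw [hTn]; linarith)
      have h2 : ‖G T - c1‖ ≤ 2 * ‖Linv κ (G T - c1)‖ := by
        conv_lhs => rw [← Lmap_Linv hκn (G T - c1)]
        exact norm_Lmap_le hκn _
      have h3 := norm_sub_norm_le (G T) c1
      have h4 : ‖c1‖ ≤ B := by rw [hB]; linarith [norm_nonneg c2]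
      rw [hTn] at h1
      simp only [mem_ofPred_eq]
      linarith
    · simp only [Lmap_Linv hκn, add_sub_cancel]
    · simp only [mem_ofPred_eq, hTn]; linarith
  have hΩc : IsPreconnected Ω := (isPreconnected_norm_gt hR'0).image _
    (continuous_const.add (Lmap κ).continuous_of_finiteDimensional).continuousOn
  have hΩV : Ω ⊆ V := hΩc.subset_of_closure_inter_subset hVo hne hcl
  have hsubset : G '' {ζ : ℂ | ρ < ‖ζ‖ ∧ ‖ζ‖ < R} ⊆
      (fun x => c1 + x) '' (Lmap κ '' closedBall 0 R') := by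
    rintro _ ⟨ζ, hζ, rfl⟩
    refine ⟨G ζ - c1, ⟨Linv κ (G ζ - c1), ?_, Lmap_Linv hκn _⟩, add_sub_cancel _ _⟩
    rw [mem_closedBall_zero_iff]
    by_contra hcon
    rw [not_le] at hcon
    obtain ⟨ζ', hζ', he⟩ := hΩV (show G ζ ∈ Ω from
      ⟨Linv κ (G ζ - c1), hcon, by simp only [Lmap_Linv hκn, add_sub_cancel]⟩)
    have := hinj (lt_trans (by linarith : (1 : ℝ) < R) hζ') (lt_trans hρ hζ.1) he
    rw [this] at hζ'
    exact absurd hζ.2 (not_lt.2 (le_of_lt hζ'))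
  refine (measure_mono hsubset).trans ?_
  rw [image_add_left, measure_preimage_add, Measure.addHaar_image_linearMap,
    Complex.volume_closedBall, ← ENNReal.ofReal_pow hR'0, ← ENNReal.ofReal_coe_nnreal,
    NNReal.coe_real_pi, ← ENNReal.ofReal_mul (by positivity), ← ENNReal.ofReal_mul (abs_nonneg _)]
  refine ENNReal.ofReal_le_ofReal ?_
  calc |LinearMap.det (Lmap κ)| * (R' ^ 2 * π) ≤ 1 * (R' ^ 2 * π) :=
        mul_le_mul_of_nonneg_right (abs_det_Lmap_le hκn) (by positivity)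
    _ = π * R' ^ 2 := by ring

theorem area_bound {c : ℕ → ℂ} {M : ℕ} (hh : DifferentiableOn ℂ h (ball 0 1))
    (hJ : Jet h c (M + 3)) (h0 : c 0 = 1)
    (hinj : InjOn (fun ζ => ζ * h ζ⁻¹) {ζ | 1 < ‖ζ‖}) :
    ∑ j ∈ Finset.range (M + 1), ((j : ℝ) + 1) * ‖c (j + 2)‖ ^ 2 ≤ 1 := by
  obtain ⟨q1, -, hj1, he1⟩ := hJ.shift
  obtain ⟨q2, -, hj2, he2⟩ := hj1.shift
  obtain ⟨q3, hq3, -, he3⟩ := hj2.shift
  have hexp : ∀ z ∈ ball (0 : ℂ) 1, h z = 1 + z * (c 1 + z * (c 2 + z * q3 z)) := by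
    intro z hz
    rw [he1 z hz, he2 z hz, he3 z hz, h0]
  obtain ⟨C, hC⟩ := (isCompact_closedBall (0 : ℂ) (1 / 2)).exists_bound_of_continuousOn
    (hq3.continuousOn.mono (closedBall_subset_ball (by norm_num)))
  have hq : ∀ z : ℂ, ‖z‖ ≤ 1 / 2 → ‖q3 z‖ ≤ C := fun z hz => hC z (mem_closedBall_zero_iff.2 hz)
  set a : ℕ → ℝ := fun j => ((j : ℝ) + 1) * ‖c (j + 2)‖ ^ 2 with ha
  set S : ℝ → ℝ := fun r => ∑ j ∈ Finset.range (M + 1), a j * r⁻¹ ^ (2 * j + 2) with hS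
  set f : ℝ → ℝ := fun r => r * (2 * π *
    ∑ k ∈ Finset.range (M + 3), ‖(1 - (k : ℂ)) * c k‖ ^ 2 * r⁻¹ ^ (2 * k)) with hf
  have hsum : ∀ r : ℝ, ∑ k ∈ Finset.range (M + 3), ‖(1 - (k : ℂ)) * c k‖ ^ 2 * r⁻¹ ^ (2 * k) =
      1 + ∑ j ∈ Finset.range (M + 1), ((j : ℝ) + 1) * a j * r⁻¹ ^ (2 * j + 4) := by
    intro r
    rw [Finset.sum_range_succ', Finset.sum_range_succ']
    have : ∀ j ∈ Finset.range (M + 1),
        ‖(1 - ((j + 1 + 1 : ℕ) : ℂ)) * c (j + 1 + 1)‖ ^ 2 * r⁻¹ ^ (2 * (j + 1 + 1)) =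
          ((j : ℝ) + 1) * a j * r⁻¹ ^ (2 * j + 4) := by
      intro j _
      rw [show (1 : ℂ) - ((j + 1 + 1 : ℕ) : ℂ) = -(((j : ℝ) + 1 : ℝ) : ℂ) by push_cast; ring,
        norm_mul, norm_neg, norm_real, Real.norm_of_nonneg (by positivity), ha]
      ring
    rw [Finset.sum_congr rfl this]
    simp [h0, add_comm]
  have key : ∀ ρ R : ℝ, 1 < ρ → ρ ≤ R → 2 ≤ R → ‖c 2‖ / R ^ 2 ≤ 1 / 2 →
      S ρ ≤ ρ ^ 2 + (S R + (R + 2 * C / R ^ 2) ^ 2 - R ^ 2) := by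
    intro ρ R hρ hρR hR hκ
    have hcont : ContinuousOn f (Icc ρ R) := by
      have : ∀ r ∈ Icc ρ R, r ≠ 0 := fun r hr => by linarith [hr.1]
      refine continuousOn_id.mul (continuousOn_const.mul (continuousOn_finsetSum _ fun k _ => ?_))
      exact continuousOn_const.mul ((continuousOn_id.inv₀ this).pow _)
    have hnn : ∀ r ∈ Icc ρ R, 0 ≤ f r := fun r hr => by
      have : 0 ≤ r := by linarith [hr.1]
      positivity
    have hle : ∀ r ∈ Ioo ρ R, f r ≤ r * ∫ θ in (-π)..π,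
        ‖h (circleMap 0 r⁻¹ θ) - circleMap 0 r⁻¹ θ * deriv h (circleMap 0 r⁻¹ θ)‖ ^ 2 :=
      fun r hr => mul_le_mul_of_nonneg_left (mean_sq_ge hJ.sub_mul_deriv
        (inv_nonneg.2 (by linarith [hr.1])) (inv_lt_one_of_one_lt₀ (by linarith [hr.1])))
        (by linarith [hr.1])
    have hint : ∫ r in Ioo ρ R, f r = π * (R ^ 2 - S R) - π * (ρ ^ 2 - S ρ) := by
      rw [← integral_Ioc_eq_integral_Ioo, ← intervalIntegral.integral_of_le hρR]
      refine intervalIntegral.integral_eq_sub_of_hasDerivAt (f := fun r => π * (r ^ 2 - S r)) ?_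
        (hcont.intervalIntegrable_of_Icc hρR)
      intro r hr
      rw [uIcc_of_le hρR] at hr
      have hr0 : r ≠ 0 := by linarith [hr.1]
      have hSd : HasDerivAt S (∑ j ∈ Finset.range (M + 1),
          a j * ((2 * j + 2 : ℕ) * r⁻¹ ^ (2 * j + 1) * (-(r ^ 2)⁻¹))) r := by
        refine HasDerivAt.fun_sum fun j _ => ?_
        exact ((hasDerivAt_inv hr0).fun_pow (2 * j + 2)).const_mul (a j)
      refine ((((hasDerivAt_pow 2 r).sub hSd).const_mul π)).congr_deriv ?_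
      simp only [hf, hsum, Finset.mul_sum, mul_add, Nat.cast_ofNat, mul_one]
      rw [mul_sub, sub_eq_add_neg, Finset.mul_sum, ← Finset.sum_neg_distrib]
      congr 1
      · ring
      · refine Finset.sum_congr rfl fun j _ => ?_
        push_cast
        simp only [inv_pow]
        field_simp
        ring
    have h1 := (integral_le_volume hh hinj hρ hcont hnn hle).trans
      (volume_image_le hh hinj hexp hq hρ hR hκ)
    rw [ENNReal.ofReal_le_ofReal_iff (by positivity), hint] at h1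
    nlinarith [Real.pi_pos]
  have hlim : ∀ ρ : ℝ, 1 < ρ → S ρ ≤ ρ ^ 2 := by
    intro ρ hρ
    have t1 : Tendsto S atTop (𝓝 0) := by
      have : Tendsto S atTop (𝓝 (∑ j ∈ Finset.range (M + 1), a j * 0 ^ (2 * j + 2))) :=
        tendsto_finsetSum _ fun j _ => (tendsto_inv_atTop_zero.pow _).const_mul _
      simpa using this
    have t2 : Tendsto (fun R : ℝ => (R + 2 * C / R ^ 2) ^ 2 - R ^ 2) atTop (𝓝 0) := by
      have : Tendsto (fun R : ℝ => 4 * C * R⁻¹ + 4 * C ^ 2 * (R⁻¹) ^ 4) atTop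
          (𝓝 (4 * C * 0 + 4 * C ^ 2 * 0 ^ 4)) :=
        (tendsto_inv_atTop_zero.const_mul _).add ((tendsto_inv_atTop_zero.pow 4).const_mul _)
      simp only [mul_zero, zero_pow four_ne_zero, add_zero] at this
      refine this.congr' ?_
      filter_upwards [eventually_gt_atTop (0 : ℝ)] with R hR
      field_simp
      ring
    have t3 : Tendsto (fun R : ℝ => ρ ^ 2 + (S R + (R + 2 * C / R ^ 2) ^ 2 - R ^ 2)) atTop
        (𝓝 (ρ ^ 2)) := by
      have := ((t1.add t2).const_add (ρ ^ 2))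
      simp only [add_zero] at this
      refine this.congr fun R => ?_
      ring
    refine ge_of_tendsto t3 ?_
    filter_upwards [eventually_ge_atTop ρ, eventually_ge_atTop (2 + 2 * ‖c 2‖)] with R hR1 hR2
    have hn := norm_nonneg (c 2)
    refine key ρ R hρ hR1 (by linarith) ?_
    have : 0 < R := by linarith
    rw [div_le_iff₀ (by positivity)]
    nlinarith
  have hcS : ContinuousAt S 1 := by
    refine tendsto_finsetSum _ fun j _ => ?_
    exact ((continuousAt_inv₀ one_ne_zero).pow _).const_mul _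
  have := le_of_tendsto_of_tendsto (hcS.tendsto.mono_left nhdsWithin_le_nhds)
    ((continuous_pow 2).continuousAt.tendsto.mono_left (nhdsWithin_le_nhds (s := Ioi (1 : ℝ))))
    (eventually_nhdsWithin_of_forall fun ρ hρ => hlim ρ hρ)
  simpa [hS, ha] using this

end Vale.Agent.P142J
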