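import Mathlib

/-!
# The body of four exterior coefficients

For a univalent `f`, the coefficients `b n` of `ζ ↦ f'(0) / (f (1/ζ) - f 0)` obey the area theorem,
and so does the square root transform.
-/

namespace Vale.Agent.P142J

open Complex

/-- The area theorem, cut after four terms, for a map and for its square root transform. -/
def Body (b0 b1 b2 b3 : ℂ) : Prop :=
  ‖b1‖ ^ 2 + 2 * ‖b2‖ ^ 2 + 3 * ‖b3‖ ^ 2 ≤ 1 ∧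
  ‖b0 / 2‖ ^ 2 + 3 * ‖b1 / 2 - b0 ^ 2 / 8‖ ^ 2 +
    5 * ‖b2 / 2 - b0 * b1 / 4 + b0 ^ 3 / 16‖ ^ 2 +
    7 * ‖b3 / 2 - (b0 * b2 + b1 ^ 2 / 2) / 4 + 3 / 16 * b0 ^ 2 * b1 - 5 / 128 * b0 ^ 4‖ ^ 2 ≤ 1

/-- The normalised Taylor coefficient `f^(n)(0) / (n! f'(0))`. -/
noncomputable def coef (f : ℂ → ℂ) (n : ℕ) : ℂ :=
  iteratedDeriv n f 0 / (n.factorial * deriv f 0)

/-- The pre-Schwarzian `f''/f'`. -/
noncomputable def pre (f : ℂ → ℂ) (z : ℂ) : ℂ := deriv (deriv f) z / deriv f z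

/-- The Schwarzian. -/
noncomputable def schw (f : ℂ → ℂ) (z : ℂ) : ℂ := deriv (pre f) z - pre f z ^ 2 / 2

/-- The unit vector of the angle `θ`. -/
noncomputable def dir (θ : ℝ) : ℂ := exp (θ * I)

/-- The jets `b0, b1, b2, b3` of the exterior map at `r e^(iθ)`. -/
noncomputable def jet0 (f : ℂ → ℂ) (r θ : ℝ) : ℂ :=
  r - dir θ * (((1 - r ^ 2) / 2 : ℝ) : ℂ) * pre f (r * dir θ)

/-- See `jet0`. -/
noncomputable def jet1 (f : ℂ → ℂ) (r θ : ℝ) : ℂ :=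
  -(dir θ ^ 2 * (((1 - r ^ 2) ^ 2 : ℝ) : ℂ) * schw f (r * dir θ)) / 6

/-- See `jet0`. -/
noncomputable def jet2 (f : ℂ → ℂ) (r θ : ℝ) : ℂ :=
  -(dir θ ^ 3 * (((1 - r ^ 2) ^ 3 : ℝ) : ℂ) * deriv (schw f) (r * dir θ) -
    4 * r * (dir θ ^ 2 * (((1 - r ^ 2) ^ 2 : ℝ) : ℂ) * schw f (r * dir θ))) / 24

/-- See `jet0`. -/
noncomputable def jet3 (f : ℂ → ℂ) (r θ : ℝ) : ℂ :=
  (10 * r * (dir θ ^ 3 * (((1 - r ^ 2) ^ 3 : ℝ) : ℂ) * deriv (schw f) (r * dir θ)) -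
    20 * r ^ 2 * (dir θ ^ 2 * (((1 - r ^ 2) ^ 2 : ℝ) : ℂ) * schw f (r * dir θ)) -
    dir θ ^ 4 * (((1 - r ^ 2) ^ 4 : ℝ) : ℂ) * deriv (deriv (schw f)) (r * dir θ) -
    24 * jet1 f r θ ^ 2) / 120

/-- `(1 - r^2)/2` times the radial derivative of the first three jets. -/
noncomputable def dR (b0 b1 b2 b3 : ℂ) : ℂ × ℂ × ℂ :=
  (1 / 2 - b0 ^ 2 / 2 + 3 / 2 * b1, 2 * b2, 5 / 2 * b3 + b1 ^ 2 / 2 - b1 / 2)

/-- `(1 - r^2)/2` times the angular derivative of the first three jets. -/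
noncomputable def dT (r : ℝ) (b0 b1 b2 b3 : ℂ) : ℂ × ℂ × ℂ :=
  (-I * (r * (1 / 2 - 3 / 2 * b1 + b0 ^ 2 / 2) - (1 + r ^ 2) / 2 * b0),
    I * ((1 + r ^ 2) * b1 + 2 * r * b2),
    I * (3 * (1 + r ^ 2) / 2 * b2 + r * (b1 / 2 + 5 / 2 * b3 + b1 ^ 2 / 2)))

/-- The defect in the growth inequality for the mean of `P ‖f'‖^t`, corrected by a derivative. -/
noncomputable def rate (t α : ℝ) (P Q : ℂ × ℂ × ℂ → ℝ) (r : ℝ) (b0 b1 b2 b3 : ℂ) : ℝ :=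
  α * P (b0, b1, b2) - t * (r - b0.re) * P (b0, b1, b2) -
    fderiv ℝ P (b0, b1, b2) (dR b0 b1 b2 b3) - t * r * b0.im * Q (b0, b1, b2) -
    fderiv ℝ Q (b0, b1, b2) (dT r b0 b1 b2 b3)

/-- A certificate that the mean of `‖f'‖^t` grows at most like `(1 - r)^(-α)`. -/
def Cert (t α : ℝ) (P Q : ℂ × ℂ × ℂ → ℝ) : Prop :=
  ContDiff ℝ 1 P ∧ ContDiff ℝ 1 Q ∧ ∃ ε : ℝ, 0 < ε ∧ ∀ b0 b1 b2 b3 : ℂ, Body b0 b1 b2 b3 →
    ε ≤ P (b0, b1, b2) ∧ ε ≤ rate t α P Q 1 b0 b1 b2 b3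

end Vale.Agent.P142J
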