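import Mathlib
import Vale.Agent.P142J.Defs
import Vale.Agent.P142J.AreaJet
import Vale.Agent.P142J.AreaMean
import Vale.Agent.P142J.AreaBound

/-!
# The area theorem for univalent maps of the disc
-/

namespace Vale.Agent.P142J

open Complex Metric Set Filter Finset
open scoped Topology

theorem deriv_ne_zero {f : ℂ → ℂ} (hf : DifferentiableOn ℂ f (ball 0 1))
    (hinj : InjOn f (ball 0 1)) : ∀ z ∈ ball (0 : ℂ) 1, deriv f z ≠ 0 :=
  fun _ hz => deriv_ne_zero_of_injOn isOpen_ball hf hinj hz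

/-- A holomorphic nonvanishing function on the disc with value `1` at `0` has a holomorphic
square root. -/
theorem exists_sqrt {h : ℂ → ℂ} (hh : DifferentiableOn ℂ h (ball 0 1))
    (hne : ∀ z ∈ ball (0 : ℂ) 1, h z ≠ 0) (h0 : h 0 = 1) :
    ∃ g : ℂ → ℂ, DifferentiableOn ℂ g (ball 0 1) ∧ g 0 = 1 ∧
      ∀ z ∈ ball (0 : ℂ) 1, g z ^ 2 = h z := by
  have hd : DifferentiableOn ℂ (fun z => deriv h z / h z) (ball 0 1) :=
    (hh.deriv isOpen_ball).div hh hne
  obtain ⟨L, hL0, hL⟩ := hd.isExactOn_ball.with_val_at 0 0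
  have hLd : DifferentiableOn ℂ L (ball 0 1) :=
    fun z hz => (hL z hz).differentiableAt.differentiableWithinAt
  have hF : ∀ z ∈ ball (0 : ℂ) 1, HasDerivAt (fun w => exp (-L w) * h w) 0 z := by
    intro z hz
    refine ((hL z hz).fun_neg.cexp.mul
      (hh.differentiableAt (isOpen_ball.mem_nhds hz)).hasDerivAt).congr_deriv ?_
    have := hne z hz
    field_simp
    ring
  refine ⟨fun z => exp (L z / 2), by fun_prop, by simp [hL0], fun z hz => ?_⟩
  obtain ⟨a, ha⟩ := isOpen_ball.exists_is_const_of_deriv_eq_zero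
    (convex_ball (0 : ℂ) 1).isPreconnected
    (fun w hw => (hF w hw).differentiableAt.differentiableWithinAt)
    (fun w hw => (hF w hw).deriv)
  have h1 := ha 0 (mem_ball_self one_pos)
  have h2 := ha z hz
  simp only [hL0, h0, neg_zero, Complex.exp_zero, mul_one] at h1
  rw [← h1, Complex.exp_neg] at h2
  rw [← Complex.exp_nat_mul]
  have : ((2 : ℕ) : ℂ) * (L z / 2) = L z := by push_cast; ring
  rw [this]
  field_simp at h2
  exact h2.symm

theorem body_coef {f : ℂ → ℂ} (hf : DifferentiableOn ℂ f (ball 0 1))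
    (hinj : InjOn f (ball 0 1)) :
    Body (-coef f 2) (coef f 2 ^ 2 - coef f 3)
      (-coef f 4 + 2 * coef f 2 * coef f 3 - coef f 2 ^ 3)
      (-coef f 5 + 2 * coef f 2 * coef f 4 + coef f 3 ^ 2 - 3 * coef f 2 ^ 2 * coef f 3 +
        coef f 2 ^ 4) := by
  have h0mem : (0 : ℂ) ∈ ball (0 : ℂ) 1 := mem_ball_self one_pos
  have hd0 : deriv f 0 ≠ 0 := deriv_ne_zero hf hinj 0 h0mem
  set a2 := coef f 2 with ha2
  set a3 := coef f 3 with ha3
  set a4 := coef f 4 with ha4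
  set a5 := coef f 5 with ha5
  set b0 := -a2 with hb0
  set b1 := a2 ^ 2 - a3 with hb1
  set b2 := -a4 + 2 * a2 * a3 - a2 ^ 3 with hb2
  set b3 := -a5 + 2 * a2 * a4 + a3 ^ 2 - 3 * a2 ^ 2 * a3 + a2 ^ 4 with hb3
  -- the quotient `u z = (f z - f 0) / (z f'(0))`
  obtain ⟨p, -, hp, hpf⟩ := (jet_taylor hf 6).shift
  obtain ⟨q, hq, hqe⟩ := hp
  set u : ℂ → ℂ := fun z => dslope f 0 z / deriv f 0 with hu
  have hmem : ball (0 : ℂ) 1 ∈ 𝓝 (0 : ℂ) := ball_mem_nhds 0 one_pos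
  have hud : DifferentiableOn ℂ u (ball 0 1) :=
    ((differentiableOn_dslope hmem).2 hf).div_const _
  have hu0 : u 0 = 1 := by simp [hu, hd0]
  have hzu : ∀ z : ℂ, z * u z = (f z - f 0) / deriv f 0 := fun z => by
    have := sub_smul_dslope f 0 z
    simp only [sub_zero, smul_eq_mul] at this
    rw [hu, mul_div_assoc', this]
  have hune : ∀ z ∈ ball (0 : ℂ) 1, u z ≠ 0 := by
    intro z hz hcon
    by_cases hz0 : z = 0
    · rw [hz0, hu0] at hcon; exact one_ne_zero hcon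
    · have := hzu z
      rw [hcon, mul_zero, eq_comm, div_eq_zero_iff] at this
      exact hz0 (hinj hz h0mem (sub_eq_zero.1 (this.resolve_right hd0)))
  have huJ : ∀ z ∈ ball (0 : ℂ) 1,
      u z = 1 + a2 * z + a3 * z ^ 2 + a4 * z ^ 3 + a5 * z ^ 4 + z ^ 5 * (q z / deriv f 0) := by
    have key : ∀ z ∈ ball (0 : ℂ) 1, z ≠ 0 →
        u z = 1 + a2 * z + a3 * z ^ 2 + a4 * z ^ 3 + a5 * z ^ 4 + z ^ 5 * (q z / deriv f 0) := by
      intro z hz hz0
      refine mul_left_cancel₀ hz0 ?_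
      rw [hzu, hpf z hz, hqe z hz, ha2, ha3, ha4, ha5]
      simp only [coef, Finset.sum_range_succ, Finset.sum_range_zero, zero_add, iteratedDeriv_zero,
        iteratedDeriv_one, Nat.factorial, Nat.cast_one, Nat.reduceAdd, Nat.succ_eq_add_one]
      field_simp
      ring
    intro z hz
    by_cases hz0 : z = 0
    · subst hz0; simp [hu0]
    · exact key z hz hz0
  -- `h = 1 / u`, with its jet
  set h : ℂ → ℂ := fun z => (u z)⁻¹ with hh
  have hhd : DifferentiableOn ℂ h (ball 0 1) := hud.inv hune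
  have hh0 : h 0 = 1 := by simp [hh, hu0]
  have hhne : ∀ z ∈ ball (0 : ℂ) 1, h z ≠ 0 := fun z hz => inv_ne_zero (hune z hz)
  set S : ℂ → ℂ := fun z => (a2 * b3 + a3 * b2 + a4 * b1 + a5 * b0) +
    (a3 * b3 + a4 * b2 + a5 * b1) * z + (a4 * b3 + a5 * b2) * z ^ 2 + a5 * b3 * z ^ 3 +
    q z / deriv f 0 * (1 + b0 * z + b1 * z ^ 2 + b2 * z ^ 3 + b3 * z ^ 4) with hS
  set c : ℕ → ℂ := fun k => if k = 0 then 1 else if k = 1 then b0 else if k = 2 then b1
    else if k = 3 then b2 else b3 with hc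
  have hJ : Jet h c 5 := by
    refine ⟨fun z => -(S z * h z), by simp only [hS]; fun_prop, fun z hz => ?_⟩
    have e : u z * (1 + b0 * z + b1 * z ^ 2 + b2 * z ^ 3 + b3 * z ^ 4) = 1 + z ^ 5 * S z := by
      rw [huJ z hz]; simp only [hS, hb0, hb1, hb2, hb3]; ring
    have e' : h z * u z = 1 := inv_mul_cancel₀ (hune z hz)
    simp [hc, Finset.sum_range_succ]
    linear_combination (-(h z)) * e + (1 + b0 * z + b1 * z ^ 2 + b2 * z ^ 3 + b3 * z ^ 4) * e'
  have hinjG : InjOn (fun ζ => ζ * h ζ⁻¹) {ζ : ℂ | 1 < ‖ζ‖} := by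
    intro x hx y hy hxy
    have e : ∀ w : ℂ, (w * h w⁻¹)⁻¹ = (f w⁻¹ - f 0) / deriv f 0 := fun w => by
      rw [← hzu, mul_inv, hh, inv_inv]
    have h2 : (x * h x⁻¹)⁻¹ = (y * h y⁻¹)⁻¹ := congrArg _ hxy
    rw [e, e, div_left_inj' hd0, sub_left_inj] at h2
    exact inv_injective (hinj (inv_mem_ball hx) (inv_mem_ball hy) h2)
  -- the square root transform
  obtain ⟨g, hg, hg0, hg2⟩ := exists_sqrt hhd hhne hh0
  set e : ℕ → ℂ := fun k => iteratedDeriv k g 0 / k.factorial with he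
  obtain ⟨r, hr, hgr⟩ := jet_taylor hg 5
  have he0 : e 0 = 1 := by simp [he, hg0]
  have hgJ : ∀ z ∈ ball (0 : ℂ) 1,
      g z = 1 + e 1 * z + e 2 * z ^ 2 + e 3 * z ^ 3 + e 4 * z ^ 4 + z ^ 5 * r z := by
    intro z hz
    rw [hgr z hz]
    simp only [Finset.sum_range_succ, Finset.sum_range_zero, zero_add, pow_zero, mul_one, pow_one]
    change e 0 + e 1 * z + e 2 * z ^ 2 + e 3 * z ^ 3 + e 4 * z ^ 4 + z ^ 5 * r z = _
    rw [he0]
  set c' : ℕ → ℂ := fun k => if k = 0 then 1 else if k = 1 then 2 * e 1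
    else if k = 2 then 2 * e 2 + e 1 ^ 2 else if k = 3 then 2 * e 3 + 2 * e 1 * e 2
    else 2 * e 4 + 2 * e 1 * e 3 + e 2 ^ 2 with hc'
  have hJ' : Jet h c' 5 := by
    refine ⟨fun z => (2 * e 1 * e 4 + 2 * e 2 * e 3) + (2 * e 2 * e 4 + e 3 ^ 2) * z +
      2 * e 3 * e 4 * z ^ 2 + e 4 ^ 2 * z ^ 3 +
      r z * (2 * (1 + e 1 * z + e 2 * z ^ 2 + e 3 * z ^ 3 + e 4 * z ^ 4) + z ^ 5 * r z),
      by fun_prop, fun z hz => ?_⟩
    rw [← hg2 z hz, hgJ z hz]
    simp [hc', Finset.sum_range_succ]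
    ring
  have hu' := hJ.unique hJ'
  have r1 : e 1 = b0 / 2 := by
    have := hu' 1 (by norm_num); simp [hc, hc'] at this; rw [this]; ring
  have r2 : e 2 = b1 / 2 - b0 ^ 2 / 8 := by
    have := hu' 2 (by norm_num); simp [hc, hc'] at this
    rw [r1] at this; rw [this]; ring
  have r3 : e 3 = b2 / 2 - b0 * b1 / 4 + b0 ^ 3 / 16 := by
    have := hu' 3 (by norm_num); simp [hc, hc'] at this
    rw [r1, r2] at this; rw [this]; ring
  have r4 : e 4 = b3 / 2 - (b0 * b2 + b1 ^ 2 / 2) / 4 + 3 / 16 * b0 ^ 2 * b1 -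
      5 / 128 * b0 ^ 4 := by
    have := hu' 4 (by norm_num); simp [hc, hc'] at this
    rw [r1, r2, r3] at this; rw [this]; ring
  set H : ℂ → ℂ := fun z => g (z ^ 2) with hH
  have hsq : ∀ z ∈ ball (0 : ℂ) 1, z ^ 2 ∈ ball (0 : ℂ) 1 := fun z hz => by
    rw [mem_ball_zero_iff] at hz ⊢; rw [norm_pow]
    exact pow_lt_one₀ (norm_nonneg _) hz two_ne_zero
  have hHd : DifferentiableOn ℂ H (ball 0 1) := hg.comp (by fun_prop) hsq
  set d : ℕ → ℂ := fun k => if k % 2 = 0 then e (k / 2) else 0 with hd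
  have hHJ : Jet H d 10 := by
    refine ⟨fun z => r (z ^ 2), hr.comp (by fun_prop) hsq, fun z hz => ?_⟩
    simp only [hH]
    rw [hgJ _ (hsq z hz)]
    simp [hd, he0, Finset.sum_range_succ]
    ring
  have hd00 : d 0 = 1 := by simp [hd, he0]
  have hinjH : InjOn (fun ζ => ζ * H ζ⁻¹) {ζ : ℂ | 1 < ‖ζ‖} := by
    intro x hx y hy hxy
    have hsq1 : ∀ w : ℂ, 1 < ‖w‖ → 1 < ‖w ^ 2‖ := fun w hw => by
      rw [norm_pow]; exact one_lt_pow₀ hw two_ne_zero
    have e2 : ∀ w : ℂ, 1 < ‖w‖ → (w * H w⁻¹) ^ 2 = w ^ 2 * h (w ^ 2)⁻¹ := fun w hw => by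
      rw [mul_pow, hH, ← inv_pow, hg2 _ (hsq _ (inv_mem_ball hw))]
    have h2 := e2 x hx
    rw [show x * H x⁻¹ = y * H y⁻¹ from hxy, e2 y hy] at h2
    have hxy2 : y ^ 2 = x ^ 2 := hinjG (hsq1 y hy) (hsq1 x hx) h2
    rcases sq_eq_sq_iff_eq_or_eq_neg.1 hxy2 with e | e
    · exact e.symm
    · exfalso
      have h3 : x * H x⁻¹ = 0 := by
        have h4 : x * H x⁻¹ = y * H y⁻¹ := hxy
        rw [e] at h4
        simp only [hH, neg_mul, inv_neg, neg_sq] at h4 ⊢
        linear_combination h4 / 2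
      have hx0 : x ≠ 0 := by
        intro e; simp only [mem_ofPred_eq, e, norm_zero] at hx; linarith
      rcases mul_eq_zero.1 h3 with e | e
      · exact hx0 e
      · have := hg2 _ (hsq _ (inv_mem_ball hx))
        simp only [hH] at e
        rw [e] at this
        exact hhne _ (hsq _ (inv_mem_ball hx)) (by rw [← this]; ring)
  constructor
  · have := area_bound (M := 2) hhd hJ (by simp [hc]) hinjG
    simp [hc, Finset.sum_range_succ] at this
    norm_num at this ⊢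
    linarith
  · have := area_bound (M := 7) hHd hHJ hd00 hinjH
    simp [hd, Finset.sum_range_succ] at this
    rw [r1, r2, r3, r4] at this
    norm_num at this ⊢
    linarith

end Vale.Agent.P142J
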