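import Mathlib

/-!
# Integer polynomials in finitely many variables, evaluated by the kernel

`MP n` are polynomials in the variables `0, ..., n - 1`, in nested Horner form: a list of
coefficients in the outer variable `n - 1`.
-/

namespace Vale.Agent.P142J

open Finset

/-- Polynomials in `n` variables. -/
@[reducible] def MP : ℕ → Type
  | 0 => ℤ
  | n + 1 => List (MP n)

/-- Adding lists coefficientwise. -/
def addL {α : Type} (f : α → α → α) : List α → List α → List α
  | [], q => q
  | p, [] => p
  | a :: p, b :: q => f a b :: addL f p q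

/-- Multiplying lists as polynomials. -/
def mulL {α : Type} (z : α) (f g : α → α → α) : List α → List α → List α
  | [], _ => []
  | a :: p, q => addL f (q.map (g a)) (z :: mulL z f g p q)

namespace MP

/-- Zero. -/
def zero : (n : ℕ) → MP n
  | 0 => (0 : ℤ)
  | _ + 1 => []

/-- Sum. -/
def add : (n : ℕ) → MP n → MP n → MP n
  | 0 => fun a b => Int.add a b
  | n + 1 => addL (add n)

/-- Product. -/
def mul : (n : ℕ) → MP n → MP n → MP n
  | 0 => fun a b => Int.mul a b
  | n + 1 => mulL (zero n) (add n) (mul n)

/-- Product with an integer. -/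
def smul (c : ℤ) : (n : ℕ) → MP n → MP n
  | 0 => fun a => Int.mul c a
  | n + 1 => List.map (smul c n)

/-- A constant. -/
def const (c : ℤ) : (n : ℕ) → MP n
  | 0 => c
  | n + 1 => [const c n]

/-- A variable. -/
def var (i : ℕ) : (n : ℕ) → MP n
  | 0 => (0 : ℤ)
  | n + 1 => if i = n then [zero n, const 1 n] else [var i n]

/-- Change the coefficient in position `e`. -/
def modAt {α : Type} (z : α) (g : α → α) : ℕ → List α → List α
  | 0, [] => [g z]
  | 0, a :: p => g a :: p
  | e + 1, [] => z :: modAt z g e []
  | e + 1, a :: p => a :: modAt z g e p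

/-- Add `c` times a monomial, whose exponents are listed from the outer variable inwards. -/
def addMono : (n : ℕ) → List ℕ → ℤ → MP n → MP n
  | 0, _, c => fun a => Int.add a c
  | n + 1, es, c => modAt (zero n) (addMono n es.tail c) es.headI

/-- The derivative of a list as a polynomial. -/
def derivL {α : Type} (z : α) (f : α → α → α) : List α → List α
  | [] => []
  | _ :: p => addL f p (z :: derivL z f p)

/-- A partial derivative. -/
def pdv (i : ℕ) : (n : ℕ) → MP n → MP n
  | 0 => fun _ => (0 : ℤ)
  | n + 1 => if i = n then derivL (zero n) (add n) else List.map (pdv i n)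

/-- The sum of the absolute values of the coefficients. -/
def l1 : (n : ℕ) → MP n → ℕ
  | 0 => fun a => Int.natAbs a
  | n + 1 => List.foldr (fun a s => l1 n a + s) 0

/-- The value at a point. -/
noncomputable def eval : (n : ℕ) → (ℕ → ℝ) → MP n → ℝ
  | 0, _ => fun a => ((a : ℤ) : ℝ)
  | n + 1, v => List.foldr (fun a s => eval n v a + v n * s) 0

/-- The value of a monomial, exponents listed from the outer variable inwards. -/
noncomputable def monoEval : (n : ℕ) → (ℕ → ℝ) → List ℕ → ℝ
  | 0, _, _ => 1
  | n + 1, v, es => v n ^ es.headI * monoEval n v es.tail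

variable {n : ℕ} (v : ℕ → ℝ)

@[simp] theorem eval_nil : eval (n + 1) v [] = 0 := rfl

@[simp] theorem eval_cons (a : MP n) (p : List (MP n)) :
    eval (n + 1) v (a :: p) = eval n v a + v n * eval (n + 1) v p := rfl

@[simp] theorem eval_zero : ∀ n : ℕ, eval n v (zero n) = 0
  | 0 => by simp [eval, zero]
  | _ + 1 => rfl

theorem eval_addL (f : MP n → MP n → MP n)
    (hf : ∀ a b, eval n v (f a b) = eval n v a + eval n v b) :
    ∀ p q : List (MP n),
      eval (n + 1) v (addL f p q) = eval (n + 1) v p + eval (n + 1) v q
  | [], q => by simp [addL]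
  | a :: p, [] => by simp [addL]
  | a :: p, b :: q => by
    simp [addL, hf, eval_addL f hf p q]
    ring

theorem eval_add : ∀ (n : ℕ) (p q : MP n), eval n v (add n p q) = eval n v p + eval n v q
  | 0, p, q => Int.cast_add p q
  | n + 1, p, q => eval_addL v (add n) (eval_add n) p q

theorem eval_smul (c : ℤ) : ∀ (n : ℕ) (p : MP n), eval n v (smul c n p) = c * eval n v p
  | 0, p => Int.cast_mul c p
  | n + 1, p => by
    induction p with
    | nil => simp [smul]
    | cons a p ih =>
      simp only [smul, List.map_cons, eval_cons, eval_smul c n a] at ih ⊢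
      rw [ih]
      ring

theorem eval_mulL (g : MP n → MP n → MP n)
    (hg : ∀ a b, eval n v (g a b) = eval n v a * eval n v b) :
    ∀ p q : List (MP n),
      eval (n + 1) v (mulL (zero n) (add n) g p q) = eval (n + 1) v p * eval (n + 1) v q
  | [], q => by simp [mulL]
  | a :: p, q => by
    have h : eval (n + 1) v (q.map (g a)) = eval n v a * eval (n + 1) v q := by
      induction q with
      | nil => simp
      | cons b q ih =>
        simp only [List.map_cons, eval_cons, hg, ih]
        ring
    simp only [mulL, eval_addL v (add n) (eval_add v n), h, eval_cons, eval_zero,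
      eval_mulL g hg p q]
    ring

theorem eval_mul : ∀ (n : ℕ) (p q : MP n), eval n v (mul n p q) = eval n v p * eval n v q
  | 0, p, q => Int.cast_mul p q
  | n + 1, p, q => eval_mulL v (mul n) (eval_mul n) p q

theorem eval_const (c : ℤ) : ∀ n : ℕ, eval n v (const c n) = c
  | 0 => rfl
  | n + 1 => by simp [const, eval_const c n]

theorem eval_var {i : ℕ} : ∀ {n : ℕ}, i < n → eval n v (var i n) = v i
  | 0, h => absurd h (by omega)
  | n + 1, h => by
    rcases eq_or_ne i n with rfl | hne
    · simp [var, eval_const]
    · simp [var, hne, eval_var (show i < n by omega)]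

theorem eval_modAt (g : MP n → MP n) {d : ℝ} (hg : ∀ a, eval n v (g a) = eval n v a + d) :
    ∀ (e : ℕ) (p : List (MP n)),
      eval (n + 1) v (modAt (zero n) g e p) = eval (n + 1) v p + v n ^ e * d
  | 0, [] => by simp [modAt, hg]
  | 0, a :: p => by simp [modAt, hg]; ring
  | e + 1, [] => by simp [modAt, eval_modAt g hg e [], pow_succ]; ring
  | e + 1, a :: p => by simp [modAt, eval_modAt g hg e p, pow_succ]; ring

theorem eval_addMono : ∀ (n : ℕ) (es : List ℕ) (c : ℤ) (p : MP n),
    eval n v (addMono n es c p) = eval n v p + c * monoEval n v es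
  | 0, es, c, p => by simp [addMono, monoEval, eval]
  | n + 1, es, c, p => by
    rw [addMono, eval_modAt v _ (d := c * monoEval n v es.tail)
      (fun a => eval_addMono n es.tail c a), monoEval]
    ring

theorem abs_eval_le (hv : ∀ i, |v i| ≤ 1) : ∀ (n : ℕ) (p : MP n), |eval n v p| ≤ l1 n p
  | 0, p => by simp [eval, l1, Nat.cast_natAbs]
  | n + 1, p => by
    induction p with
    | nil => simp [l1]
    | cons a p ih =>
      have h1 := abs_eval_le hv n a
      have h2 : |v n * eval (n + 1) v p| ≤ l1 (n + 1) p := by
        rw [abs_mul]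
        exact (mul_le_of_le_one_left (abs_nonneg _) (hv n)).trans ih
      simp only [eval_cons]
      refine (abs_add_le _ _).trans ((add_le_add h1 h2).trans_eq ?_)
      simp [l1]

theorem hasFDerivAt_eval {E : Type*} [NormedAddCommGroup E] [NormedSpace ℝ E]
    (L : ℕ → E →L[ℝ] ℝ) (x : E) : ∀ (n : ℕ) (p : MP n),
    HasFDerivAt (fun y => eval n (fun i => L i y) p)
      (∑ i ∈ range n, eval n (fun i => L i x) (pdv i n p) • L i) x
  | 0, p => by simpa [eval] using hasFDerivAt_const ((p : ℤ) : ℝ) x
  | n + 1, p => by
    set u : ℕ → ℝ := fun i => L i x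
    induction p with
    | nil =>
      simp only [pdv]
      have h : ∀ i, eval (n + 1) u
          ((if i = n then derivL (zero n) (add n) else List.map (pdv i n)) []) = 0 := fun i => by
        split_ifs <;> simp [derivL]
      simp [h, hasFDerivAt_const]
    | cons a p ih =>
      have h1 := hasFDerivAt_eval L x n a
      have h3 := h1.add ((L n).hasFDerivAt.mul ih)
      refine (h3.congr_of_eventuallyEq
        (Filter.Eventually.of_forall fun y => eval_cons _ a p)).congr_fderiv ?_
      have e1 : ∀ i ∈ range n, eval (n + 1) u (pdv i (n + 1) (a :: p)) =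
          eval n u (pdv i n a) + u n * eval (n + 1) u (pdv i (n + 1) p) := fun i hi => by
        have hne : i ≠ n := (mem_range.1 hi).ne
        simp [pdv, hne]
      have e2 : eval (n + 1) u (pdv n (n + 1) (a :: p)) =
          eval (n + 1) u p + u n * eval (n + 1) u (pdv n (n + 1) p) := by
        simp [pdv, derivL, eval_addL u (add n) (eval_add u n)]
      ext y
      simp only [FunLike.coe_sum, Finset.sum_apply, add_apply,
        smul_apply, smul_eq_mul, sum_range_succ]
      rw [show ∑ i ∈ range n, eval (n + 1) u (pdv i (n + 1) (a :: p)) * L i y =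
          ∑ i ∈ range n, (eval n u (pdv i n a) * L i y +
            u n * (eval (n + 1) u (pdv i (n + 1) p) * L i y)) from
        sum_congr rfl fun i hi => by rw [e1 i hi]; ring, sum_add_distrib, ← mul_sum, e2]
      simp only [u]
      ring

end MP

end Vale.Agent.P142J
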