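import Mathlib
import Vale.Agent.P142J.Defs
import Vale.Agent.P142J.Poly

/-!
# Checking a sum of squares certificate

The real variables are `(re, im)` of `b0 / 2, b1, b2, b3`, the outermost first. A certificate
gives `P`, `Q` and Gram matrices as `L Lᵀ`; what is left of the identity must have small `ℓ¹` norm.
-/

namespace Vale.Agent.P142J

open Complex Finset

/-- Polynomials in all eight variables. -/
abbrev R8 := MP 8

/-- Complex polynomials, as pairs. -/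
abbrev C8 := R8 × R8

/-- Sum. -/
def cadd (a b : C8) : C8 := (MP.add 8 a.1 b.1, MP.add 8 a.2 b.2)

/-- Integer multiple. -/
def csmul (k : ℤ) (a : C8) : C8 := (MP.smul k 8 a.1, MP.smul k 8 a.2)

/-- Product. -/
def cmul (a b : C8) : C8 :=
  (MP.add 8 (MP.mul 8 a.1 b.1) (MP.smul (-1) 8 (MP.mul 8 a.2 b.2)),
    MP.add 8 (MP.mul 8 a.1 b.2) (MP.mul 8 a.2 b.1))

/-- A constant. -/
def cconst (k : ℤ) : C8 := (MP.const k 8, MP.zero 8)

/-- The imaginary unit times a polynomial. -/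
def cI (a : C8) : C8 := (MP.smul (-1) 8 a.2, a.1)

/-- Squared modulus. -/
def cnorm (a : C8) : R8 := MP.add 8 (MP.mul 8 a.1 a.1) (MP.mul 8 a.2 a.2)

/-- Half of `b0`. -/
def pa0 : C8 := (MP.var 7 8, MP.var 6 8)

/-- The jet `b1`. -/
def pa1 : C8 := (MP.var 5 8, MP.var 4 8)

/-- The jet `b2`. -/
def pa2 : C8 := (MP.var 3 8, MP.var 2 8)

/-- The jet `b3`. -/
def pa3 : C8 := (MP.var 1 8, MP.var 0 8)

/-- Four times the radial directions. -/
def pR : C8 × C8 × C8 :=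
  (cadd (cconst 1) (cadd (csmul (-4) (cmul pa0 pa0)) (csmul 3 pa1)), csmul 8 pa2,
    cadd (csmul 10 pa3) (cadd (csmul 2 (cmul pa1 pa1)) (csmul (-2) pa1)))

/-- Four times the angular directions at radius one. -/
def pT : C8 × C8 × C8 :=
  (csmul (-1) (cI (cadd (cconst 1)
    (cadd (csmul (-3) pa1) (cadd (csmul 4 (cmul pa0 pa0)) (csmul (-4) pa0))))),
    cI (cadd (csmul 8 pa1) (csmul 8 pa2)),
    cI (cadd (csmul 12 pa2) (cadd (csmul 2 pa1) (cadd (csmul 10 pa3) (csmul 2 (cmul pa1 pa1))))))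

/-- The nonnegative functions on the body that may multiply a square. -/
def weight : ℕ → R8
  | 1 => MP.add 8 (MP.const 1 8) (MP.smul (-1) 8 (MP.add 8 (cnorm pa1)
      (MP.add 8 (MP.smul 2 8 (cnorm pa2)) (MP.smul 3 8 (cnorm pa3)))))
  | 2 => MP.add 8 (MP.const 64 8) (MP.smul (-1) 8 (MP.add 8 (MP.smul 64 8 (cnorm pa0))
      (MP.add 8 (MP.smul 48 8 (cnorm (cadd pa1 (csmul (-1) (cmul pa0 pa0)))))
        (MP.add 8 (MP.smul 80 8 (cnorm (cadd pa2 (cadd (csmul (-1) (cmul pa0 pa1))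
          (cmul pa0 (cmul pa0 pa0))))))
          (MP.smul 7 8 (cnorm (cadd (csmul 4 pa3) (cadd (csmul (-4) (cmul pa0 pa2))
            (cadd (csmul (-1) (cmul pa1 pa1)) (cadd (csmul 6 (cmul pa0 (cmul pa0 pa1)))
              (csmul (-5) (cmul (cmul pa0 pa0) (cmul pa0 pa0)))))))))))))
  | 3 => MP.add 8 (MP.const 1 8) (MP.smul (-1) 8 (cnorm pa0))
  | 4 => MP.add 8 (MP.const 1 8) (MP.smul (-1) 8 (MP.add 8 (cnorm pa1)
      (MP.smul 2 8 (cnorm pa2))))
  | 5 => MP.add 8 (MP.const 64 8) (MP.smul (-1) 8 (MP.add 8 (MP.smul 64 8 (cnorm pa0))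
      (MP.add 8 (MP.smul 48 8 (cnorm (cadd pa1 (csmul (-1) (cmul pa0 pa0)))))
        (MP.smul 80 8 (cnorm (cadd pa2 (cadd (csmul (-1) (cmul pa0 pa1))
          (cmul pa0 (cmul pa0 pa0)))))))))
  | _ => MP.const 1 8

/-- Inner product of two lists. -/
def dotL : List ℤ → List ℤ → ℤ
  | a :: p, b :: q => Int.add (Int.mul a b) (dotL p q)
  | _, _ => 0

/-- Sum of exponent lists. -/
def addE : List ℕ → List ℕ → List ℕ
  | [], q => q
  | p, [] => p
  | a :: p, b :: q => Nat.add a b :: addE p q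

/-- The form `|∑ rows|²` of a lower triangular factor. -/
def gram : List (List ℕ × List ℤ) → R8
  | [] => MP.zero 8
  | (e, r) :: rest => MP.addMono 8 (addE e e) (dotL r r)
      (rest.foldr (fun s acc => MP.addMono 8 (addE e s.1) (Int.mul 2 (dotL r s.2)) acc)
        (gram rest))

/-- A weighted sum of squares, with its expansion in monomials. -/
structure Block where
  /-- The number of the weight. -/
  g : ℕ
  /-- The factor. -/
  rows : List (List ℕ × List ℤ)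
  /-- The expanded product. -/
  mons : List (List ℕ × ℤ)

/-- A polynomial in eight variables, from its monomials. -/
def ofList8 : List (List ℕ × ℤ) → R8
  | [] => MP.zero 8
  | (e, k) :: rest => MP.addMono 8 e k (ofList8 rest)

/-- The expansion is right. -/
def Block.check (b : Block) : Bool :=
  Nat.ble (MP.l1 8 (MP.add 8 (MP.mul 8 (weight b.g) (gram b.rows))
    (MP.smul (-1) 8 (ofList8 b.mons)))) 0

/-- A sum of expanded blocks. -/
def squares : List Block → R8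
  | [] => MP.zero 8
  | b :: rest => MP.add 8 (ofList8 b.mons) (squares rest)

/-- A polynomial in the six variables of the first three jets, from its monomials. -/
def ofList : List (List ℕ × ℤ) → MP 6
  | [] => MP.zero 6
  | (e, k) :: rest => MP.addMono 6 e k (ofList rest)

/-- Read a polynomial of six variables in eight. -/
def lift : (m : ℕ) → MP m → MP (m + 2)
  | 0 => fun a => MP.const a 2
  | m + 1 => List.map (lift m)

/-- Directional derivative of a polynomial of six variables. -/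
def dirD (p : MP 6) (d : C8 × C8 × C8) : R8 :=
  MP.add 8 (MP.add 8 (MP.mul 8 (lift 6 (MP.pdv 5 6 p)) d.1.1)
      (MP.mul 8 (lift 6 (MP.pdv 4 6 p)) d.1.2))
    (MP.add 8
      (MP.smul 1 8 (MP.add 8 (MP.mul 8 (lift 6 (MP.pdv 3 6 p)) d.2.1.1)
        (MP.mul 8 (lift 6 (MP.pdv 2 6 p)) d.2.1.2)))
      (MP.add 8 (MP.mul 8 (lift 6 (MP.pdv 1 6 p)) d.2.2.1)
        (MP.mul 8 (lift 6 (MP.pdv 0 6 p)) d.2.2.2)))

/-- The data of a certificate: `t = -tn / den`, `α = an / den`. -/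
structure Data where
  /-- Numerator of `-t`. -/
  tn : ℤ
  /-- Common denominator. -/
  den : ℕ
  /-- Numerator of `α`. -/
  an : ℤ
  /-- The monomials of `P`. -/
  p : List (List ℕ × ℤ)
  /-- The monomials of `Q`. -/
  q : List (List ℕ × ℤ)
  /-- The squares below the rate. -/
  sr : List Block
  /-- The squares below `P`. -/
  sp : List Block
  /-- The room left for the rate. -/
  er : ℕ
  /-- The room left for `P`. -/
  ep : ℕ

/-- `4 den` times the rate at radius one. -/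
def ratePoly (D : Data) : R8 :=
  MP.add 8
    (MP.mul 8 (MP.add 8 (MP.const (4 * D.an + 4 * D.tn) 8)
      (MP.smul (-(8 * D.tn)) 8 (MP.var 7 8))) (lift 6 (ofList D.p)))
    (MP.add 8 (MP.smul (-(D.den : ℤ)) 8 (dirD (ofList D.p) pR))
      (MP.add 8 (MP.smul (8 * D.tn) 8 (MP.mul 8 (MP.var 6 8) (lift 6 (ofList D.q))))
        (MP.smul (-(D.den : ℤ)) 8 (dirD (ofList D.q) pT))))

/-- The rate part of the certificate. -/
def Data.checkRate (D : Data) : Bool :=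
  Nat.blt (MP.l1 8 (MP.add 8 (ratePoly D)
    (MP.add 8 (MP.smul (-1) 8 (squares D.sr)) (MP.const (-(D.er : ℤ)) 8)))) D.er

/-- The positivity part of the certificate. -/
def Data.checkPos (D : Data) : Bool :=
  Nat.blt (MP.l1 8 (MP.add 8 (lift 6 (ofList D.p))
    (MP.add 8 (MP.smul (-1) 8 (squares D.sp)) (MP.const (-(D.ep : ℤ)) 8)))) D.ep

/-- The coordinates of the first three jets. -/
noncomputable def coord : ℕ → (ℂ × ℂ × ℂ →L[ℝ] ℝ)
  | 5 => (1 / 2 : ℝ) • reCLM.comp (ContinuousLinearMap.fst ℝ ℂ (ℂ × ℂ))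
  | 4 => (1 / 2 : ℝ) • imCLM.comp (ContinuousLinearMap.fst ℝ ℂ (ℂ × ℂ))
  | 3 => reCLM.comp ((ContinuousLinearMap.fst ℝ ℂ ℂ).comp (ContinuousLinearMap.snd ℝ ℂ (ℂ × ℂ)))
  | 2 => imCLM.comp ((ContinuousLinearMap.fst ℝ ℂ ℂ).comp (ContinuousLinearMap.snd ℝ ℂ (ℂ × ℂ)))
  | 1 => reCLM.comp ((ContinuousLinearMap.snd ℝ ℂ ℂ).comp (ContinuousLinearMap.snd ℝ ℂ (ℂ × ℂ)))
  | 0 => imCLM.comp ((ContinuousLinearMap.snd ℝ ℂ ℂ).comp (ContinuousLinearMap.snd ℝ ℂ (ℂ × ℂ)))
  | _ => 0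

/-- The function of a polynomial in the jets. -/
noncomputable def polyFun (p : List (List ℕ × ℤ)) (b : ℂ × ℂ × ℂ) : ℝ :=
  MP.eval 6 (fun i => coord i b) (ofList p)

/-- The eight coordinates of a point of the body. -/
noncomputable def coord8 (b0 b1 b2 b3 : ℂ) : ℕ → ℝ
  | 7 => b0.re / 2
  | 6 => b0.im / 2
  | 5 => b1.re
  | 4 => b1.im
  | 3 => b2.re
  | 2 => b2.im
  | 1 => b3.re
  | 0 => b3.im
  | _ => 0

/-- The value of a complex polynomial. -/
noncomputable def cval8 (v : ℕ → ℝ) (a : C8) : ℂ := ⟨MP.eval 8 v a.1, MP.eval 8 v a.2⟩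

theorem monoEval_addE (v : ℕ → ℝ) : ∀ (n : ℕ) (e e' : List ℕ),
    MP.monoEval n v (addE e e') = MP.monoEval n v e * MP.monoEval n v e'
  | 0, e, e' => by simp [MP.monoEval]
  | n + 1, e, e' => by
    have h : (addE e e').headI = e.headI + e'.headI ∧ (addE e e').tail = addE e.tail e'.tail := by
      rcases e with _ | ⟨a, e⟩ <;> rcases e' with _ | ⟨a', e'⟩ <;>
        simp [addE, List.headI]
      rcases e with _ | ⟨b, e⟩ <;> simp [addE]
    simp only [MP.monoEval, h.1, h.2, monoEval_addE v n, pow_add]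
    ring

theorem dotL_eq : ∀ (r s : List ℤ) (N : ℕ), r.length ≤ N →
    (dotL r s : ℤ) = ∑ k ∈ range N, r.getD k 0 * s.getD k 0
  | [], s, N, _ => by simp [dotL]
  | a :: r, [], N, _ => by simp [dotL]
  | a :: r, b :: s, 0, h => by simp at h
  | a :: r, b :: s, N + 1, h => by
    have h2 : dotL (a :: r) (b :: s) = a * b + dotL r s := rfl
    rw [h2, sum_range_succ', dotL_eq r s N (by simpa using h)]
    simp [add_comm]

/-- The linear form number `k` of a factor. -/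
noncomputable def linForm (v : ℕ → ℝ) (k : ℕ) : List (List ℕ × List ℤ) → ℝ
  | [] => 0
  | (e, r) :: rest => MP.monoEval 8 v e * (r.getD k 0 : ℤ) + linForm v k rest

theorem eval_gram (v : ℕ → ℝ) : ∀ (rows : List (List ℕ × List ℤ)) (N : ℕ),
    (∀ s ∈ rows, s.2.length ≤ N) →
      MP.eval 8 v (gram rows) = ∑ k ∈ range N, linForm v k rows ^ 2
  | [], N, _ => by simp [gram, linForm]
  | (e, r) :: rest, N, h => by
    have hr : r.length ≤ N := h (e, r) (by simp)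
    have hrest := eval_gram v rest N fun s hs => h s (List.mem_cons_of_mem _ hs)
    have hfold : ∀ (l : List (List ℕ × List ℤ)) (acc : R8),
        MP.eval 8 v (l.foldr
          (fun s acc => MP.addMono 8 (addE e s.1) (Int.mul 2 (dotL r s.2)) acc) acc) =
        MP.eval 8 v acc + ∑ k ∈ range N,
          2 * (MP.monoEval 8 v e * (r.getD k 0 : ℤ)) * linForm v k l := by
      intro l acc
      induction l with
      | nil => simp [linForm]
      | cons s l ih =>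
        obtain ⟨e', r'⟩ := s
        simp only [List.foldr_cons, MP.eval_addMono, ih, monoEval_addE, linForm]
        rw [show ((Int.mul 2 (dotL r r') : ℤ) : ℝ) = 2 * ((dotL r r' : ℤ) : ℝ) from
            (Int.cast_mul 2 _).trans (by norm_num),
          dotL_eq r r' N hr, Int.cast_sum, mul_sum, sum_mul, add_assoc, ← sum_add_distrib]
        refine congrArg _ (sum_congr rfl fun k _ => ?_)
        push_cast
        ring
    rw [gram, MP.eval_addMono, hfold, hrest, monoEval_addE, dotL_eq r r N hr, Int.cast_sum, sum_mul,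
      ← sum_add_distrib, ← sum_add_distrib]
    refine sum_congr rfl fun k _ => ?_
    simp only [linForm]
    push_cast
    ring

theorem eval_gram_nonneg (v : ℕ → ℝ) (rows : List (List ℕ × List ℤ)) :
    0 ≤ MP.eval 8 v (gram rows) := by
  rw [eval_gram v rows ((rows.map fun s => s.2.length).sum) fun s hs =>
    List.le_sum_of_mem (List.mem_map.2 ⟨s, hs, rfl⟩)]
  positivity

theorem cval8_cadd (v : ℕ → ℝ) (a b : C8) : cval8 v (cadd a b) = cval8 v a + cval8 v b := by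
  apply Complex.ext <;> simp [cval8, cadd, MP.eval_add]

theorem cval8_csmul (v : ℕ → ℝ) (k : ℤ) (a : C8) :
    cval8 v (csmul k a) = (k : ℂ) * cval8 v a := by
  apply Complex.ext <;> simp [cval8, csmul, MP.eval_smul]

theorem cval8_cmul (v : ℕ → ℝ) (a b : C8) : cval8 v (cmul a b) = cval8 v a * cval8 v b := by
  apply Complex.ext <;>
    simp [cval8, cmul, MP.eval_add, MP.eval_mul, MP.eval_smul, Complex.mul_re, Complex.mul_im] <;>
    ring

theorem cval8_cI (v : ℕ → ℝ) (a : C8) : cval8 v (cI a) = I * cval8 v a := by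
  apply Complex.ext <;> simp [cval8, cI, MP.eval_smul]

theorem cval8_cconst (v : ℕ → ℝ) (k : ℤ) : cval8 v (cconst k) = (k : ℂ) := by
  apply Complex.ext <;> simp [cval8, cconst, MP.eval_const]

theorem eval_cnorm (v : ℕ → ℝ) (a : C8) : MP.eval 8 v (cnorm a) = ‖cval8 v a‖ ^ 2 := by
  rw [Complex.sq_norm, Complex.normSq_apply]
  simp [cval8, cnorm, MP.eval_add, MP.eval_mul]

variable (b0 b1 b2 b3 : ℂ)

theorem cval8_vars : cval8 (coord8 b0 b1 b2 b3) pa0 = b0 / 2 ∧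
    cval8 (coord8 b0 b1 b2 b3) pa1 = b1 ∧ cval8 (coord8 b0 b1 b2 b3) pa2 = b2 ∧
    cval8 (coord8 b0 b1 b2 b3) pa3 = b3 := by
  refine ⟨?_, ?_, ?_, ?_⟩ <;> apply Complex.ext <;>
    simp [cval8, pa0, pa1, pa2, pa3, MP.eval_var, coord8]

theorem weight_nonneg (hb : Body b0 b1 b2 b3) :
    ∀ g, 0 ≤ MP.eval 8 (coord8 b0 b1 b2 b3) (weight g) := by
  obtain ⟨h1, h2⟩ := hb
  obtain ⟨e0, e1, e2, e3⟩ := cval8_vars b0 b1 b2 b3
  intro g
  have n2 : 0 ≤ ‖b3‖ ^ 2 := sq_nonneg _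
  have k2 : 4 * ‖b1 / 2 - b0 ^ 2 / 8‖ ^ 2 = ‖b1 - (b0 / 2) * (b0 / 2)‖ ^ 2 := by
    rw [show b1 - (b0 / 2) * (b0 / 2) = 2 * (b1 / 2 - b0 ^ 2 / 8) by ring, norm_mul,
      Complex.norm_two]
    ring
  have k3 : 4 * ‖b2 / 2 - b0 * b1 / 4 + b0 ^ 3 / 16‖ ^ 2 =
      ‖b2 - b0 / 2 * b1 + b0 / 2 * (b0 / 2 * (b0 / 2))‖ ^ 2 := by
    rw [show b2 - b0 / 2 * b1 + b0 / 2 * (b0 / 2 * (b0 / 2)) =
      2 * (b2 / 2 - b0 * b1 / 4 + b0 ^ 3 / 16) by ring, norm_mul, Complex.norm_two]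
    ring
  have k4 : 64 * ‖b3 / 2 - (b0 * b2 + b1 ^ 2 / 2) / 4 + 3 / 16 * b0 ^ 2 * b1 -
      5 / 128 * b0 ^ 4‖ ^ 2 = ‖4 * b3 - 4 * (b0 / 2 * b2) - b1 * b1 +
        6 * (b0 / 2 * (b0 / 2 * b1)) - 5 * (b0 / 2 * (b0 / 2) * (b0 / 2 * (b0 / 2)))‖ ^ 2 := by
    rw [show 4 * b3 - 4 * (b0 / 2 * b2) - b1 * b1 + 6 * (b0 / 2 * (b0 / 2 * b1)) -
        5 * (b0 / 2 * (b0 / 2) * (b0 / 2 * (b0 / 2))) =
      (8 : ℂ) * (b3 / 2 - (b0 * b2 + b1 ^ 2 / 2) / 4 + 3 / 16 * b0 ^ 2 * b1 -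
        5 / 128 * b0 ^ 4) by ring, norm_mul, Complex.norm_ofNat]
    ring
  have n4 := sq_nonneg ‖b3 / 2 - (b0 * b2 + b1 ^ 2 / 2) / 4 + 3 / 16 * b0 ^ 2 * b1 -
    5 / 128 * b0 ^ 4‖
  have n5 := sq_nonneg ‖b2 / 2 - b0 * b1 / 4 + b0 ^ 3 / 16‖
  have n6 := sq_nonneg ‖b1 / 2 - b0 ^ 2 / 8‖
  match g with
  | 1 =>
    simp [weight, MP.eval_add, MP.eval_smul, MP.eval_const, eval_cnorm, e1, e2, e3]
    linarith
  | 2 =>
    simp [weight, MP.eval_add, MP.eval_smul, MP.eval_const, eval_cnorm, cval8_cadd, cval8_csmul,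
      cval8_cmul, e0, e1, e2, e3, ← sub_eq_add_neg]
    simp only [norm_div, Complex.norm_two] at h2
    ring_nf at h2 k2 k3 k4 ⊢
    linarith
  | 3 =>
    simp only [weight, MP.eval_add, MP.eval_smul, MP.eval_const, eval_cnorm, e0]
    push_cast
    linarith
  | 4 =>
    simp [weight, MP.eval_add, MP.eval_smul, MP.eval_const, eval_cnorm, e1, e2]
    linarith
  | 5 =>
    simp [weight, MP.eval_add, MP.eval_smul, MP.eval_const, eval_cnorm, cval8_cadd, cval8_csmul,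
      cval8_cmul, e0, e1, e2, ← sub_eq_add_neg]
    simp only [norm_div, Complex.norm_two] at h2
    ring_nf at h2 k2 k3 n4 ⊢
    linarith
  | 0 => simp [weight, MP.eval_const]
  | _ + 6 => simp [weight, MP.eval_const]

theorem coord8_le (hb : Body b0 b1 b2 b3) (i : ℕ) : |coord8 b0 b1 b2 b3 i| ≤ 1 := by
  obtain ⟨h1, h2⟩ := hb
  have q0 : |b0.re| ≤ 2 ∧ |b0.im| ≤ 2 := by
    have h : ‖b0 / 2‖ ^ 2 ≤ 1 := by
      nlinarith [sq_nonneg ‖b1 / 2 - b0 ^ 2 / 8‖,
        sq_nonneg ‖b2 / 2 - b0 * b1 / 4 + b0 ^ 3 / 16‖,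
        sq_nonneg ‖b3 / 2 - (b0 * b2 + b1 ^ 2 / 2) / 4 + 3 / 16 * b0 ^ 2 * b1 -
          5 / 128 * b0 ^ 4‖]
    rw [norm_div, Complex.norm_two, div_pow, div_le_one (by norm_num)] at h
    have h' : ‖b0‖ ≤ 2 := by nlinarith [norm_nonneg b0]
    exact ⟨(Complex.abs_re_le_norm _).trans h', (Complex.abs_im_le_norm _).trans h'⟩
  have key : ∀ b : ℂ, ‖b‖ ^ 2 ≤ 1 → |b.re| ≤ 1 ∧ |b.im| ≤ 1 := fun b hb => by
    have h' : ‖b‖ ≤ 1 := by nlinarith [norm_nonneg b]
    exact ⟨(Complex.abs_re_le_norm _).trans h', (Complex.abs_im_le_norm _).trans h'⟩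
  have q1 := key b1 (by nlinarith [sq_nonneg ‖b2‖, sq_nonneg ‖b3‖])
  have q2 := key b2 (by nlinarith [sq_nonneg ‖b1‖, sq_nonneg ‖b3‖])
  have q3 := key b3 (by nlinarith [sq_nonneg ‖b1‖, sq_nonneg ‖b2‖])
  match i with
  | 7 => simp only [coord8, abs_div, abs_two]; linarith [q0.1]
  | 6 => simp only [coord8, abs_div, abs_two]; linarith [q0.2]
  | 5 => exact q1.1
  | 4 => exact q1.2
  | 3 => exact q2.1
  | 2 => exact q2.2
  | 1 => exact q3.1
  | 0 => exact q3.2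
  | _ + 8 => simp [coord8]

theorem squares_nonneg (hb : Body b0 b1 b2 b3) : ∀ l : List Block,
    (∀ b ∈ l, b.check = true) → 0 ≤ MP.eval 8 (coord8 b0 b1 b2 b3) (squares l)
  | [], _ => by simp [squares]
  | b :: rest, h => by
    have h0 := Nat.le_of_ble_eq_true (h b (by simp))
    have h1 := MP.abs_eval_le (coord8 b0 b1 b2 b3) (coord8_le b0 b1 b2 b3 hb) 8
      (MP.add 8 (MP.mul 8 (weight b.g) (gram b.rows)) (MP.smul (-1) 8 (ofList8 b.mons)))
    rw [Nat.le_zero.1 h0, Nat.cast_zero, abs_nonpos_iff] at h1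
    simp [MP.eval_add, MP.eval_smul, MP.eval_mul] at h1
    rw [squares, MP.eval_add]
    refine add_nonneg ?_ (squares_nonneg hb rest fun x hx => h x (List.mem_cons_of_mem _ hx))
    nlinarith [mul_nonneg (weight_nonneg b0 b1 b2 b3 hb b.g)
      (eval_gram_nonneg (coord8 b0 b1 b2 b3) b.rows)]

theorem eval_lift (v : ℕ → ℝ) : ∀ (m : ℕ) (p : MP m),
    MP.eval (m + 2) v (lift m p) = MP.eval m (fun i => v (i + 2)) p
  | 0, p => MP.eval_const v p 2
  | m + 1, p => by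
    induction p with
    | nil => rfl
    | cons a p ih =>
      change MP.eval (m + 2) v (lift m a) + v (m + 2) * MP.eval (m + 3) v (lift (m + 1) p) = _
      rw [eval_lift v m a, ih]
      rfl

theorem coord8_shift : ∀ i < 6,
    coord8 b0 b1 b2 b3 (i + 2) = coord i (b0, b1, b2) := by
  intro i hi
  interval_cases i <;> simp [coord8, coord] <;> ring

theorem eval_congr : ∀ (n : ℕ) (u v : ℕ → ℝ), (∀ i < n, u i = v i) → ∀ p : MP n,
    MP.eval n u p = MP.eval n v p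
  | 0, _, _, _, _ => rfl
  | n + 1, u, v, h, p => by
    induction p with
    | nil => rfl
    | cons a p ih =>
      simp [eval_congr n u v (fun i hi => h i (by omega)) a, ih, h n (by omega)]

theorem eval_lift_coord (p : MP 6) :
    MP.eval 8 (coord8 b0 b1 b2 b3) (lift 6 p) = MP.eval 6 (fun i => coord i (b0, b1, b2)) p :=
  (eval_lift _ 6 p).trans (eval_congr 6 _ _ (coord8_shift b0 b1 b2 b3) p)

theorem contDiff_polyFun (p : List (List ℕ × ℤ)) : ContDiff ℝ 1 (polyFun p) := by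
  have h : ∀ (n : ℕ) (q : MP n), ContDiff ℝ 1 fun b => MP.eval n (fun i => coord i b) q := by
    intro n
    induction n with
    | zero => exact fun q => contDiff_const
    | succ n ih =>
      intro q
      induction q with
      | nil => exact contDiff_const
      | cons a q ihq => exact (ih a).add ((coord n).contDiff.mul ihq)
  exact h 6 _

theorem fderiv_polyFun (p : List (List ℕ × ℤ)) (b d : ℂ × ℂ × ℂ) :
    fderiv ℝ (polyFun p) b d =
      ∑ i ∈ range 6, MP.eval 6 (fun j => coord j b) (MP.pdv i 6 (ofList p)) * coord i d := by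
  rw [show fderiv ℝ (polyFun p) b = _ from (MP.hasFDerivAt_eval coord b 6 (ofList p)).fderiv]
  simp

theorem eval_dirD (p : List (List ℕ × ℤ)) (d : C8 × C8 × C8) (w : ℂ × ℂ × ℂ)
    (h0 : cval8 (coord8 b0 b1 b2 b3) d.1 = 2 * w.1)
    (h1 : cval8 (coord8 b0 b1 b2 b3) d.2.1 = 4 * w.2.1)
    (h2 : cval8 (coord8 b0 b1 b2 b3) d.2.2 = 4 * w.2.2) :
    MP.eval 8 (coord8 b0 b1 b2 b3) (dirD (ofList p) d) =
      4 * fderiv ℝ (polyFun p) (b0, b1, b2) w := by
  have a0 := congrArg Complex.re h0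
  have a0' := congrArg Complex.im h0
  have a1 := congrArg Complex.re h1
  have a1' := congrArg Complex.im h1
  have a2 := congrArg Complex.re h2
  have a2' := congrArg Complex.im h2
  simp [cval8] at a0 a0' a1 a1' a2 a2'
  simp [dirD, MP.eval_add, MP.eval_mul, MP.eval_smul, eval_lift_coord, fderiv_polyFun,
    sum_range_succ, coord, a0, a0', a1, a1', a2, a2']
  ring

theorem cval8_pR : cval8 (coord8 b0 b1 b2 b3) pR.1 = 2 * (dR b0 b1 b2 b3).1 ∧
    cval8 (coord8 b0 b1 b2 b3) pR.2.1 = 4 * (dR b0 b1 b2 b3).2.1 ∧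
    cval8 (coord8 b0 b1 b2 b3) pR.2.2 = 4 * (dR b0 b1 b2 b3).2.2 := by
  obtain ⟨e0, e1, e2, e3⟩ := cval8_vars b0 b1 b2 b3
  refine ⟨?_, ?_, ?_⟩ <;>
    simp [pR, dR, cval8_cadd, cval8_csmul, cval8_cmul, cval8_cconst, e0, e1, e2, e3] <;> ring

theorem cval8_pT : cval8 (coord8 b0 b1 b2 b3) pT.1 = 2 * (dT 1 b0 b1 b2 b3).1 ∧
    cval8 (coord8 b0 b1 b2 b3) pT.2.1 = 4 * (dT 1 b0 b1 b2 b3).2.1 ∧
    cval8 (coord8 b0 b1 b2 b3) pT.2.2 = 4 * (dT 1 b0 b1 b2 b3).2.2 := by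
  obtain ⟨e0, e1, e2, e3⟩ := cval8_vars b0 b1 b2 b3
  refine ⟨?_, ?_, ?_⟩ <;>
    simp [pT, dT, cval8_cadd, cval8_csmul, cval8_cmul, cval8_cI, cval8_cconst, e0, e1, e2, e3] <;>
    ring

theorem eval_ratePoly (D : Data) (hden : 0 < D.den) :
    MP.eval 8 (coord8 b0 b1 b2 b3) (ratePoly D) =
      4 * D.den * rate (-(D.tn : ℝ) / D.den) ((D.an : ℝ) / D.den) (polyFun D.p) (polyFun D.q) 1
        b0 b1 b2 b3 := by
  obtain ⟨r0, r1, r2⟩ := cval8_pR b0 b1 b2 b3
  obtain ⟨t0, t1, t2⟩ := cval8_pT b0 b1 b2 b3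
  have hd : (D.den : ℝ) ≠ 0 := Nat.cast_ne_zero.2 hden.ne'
  simp [ratePoly, MP.eval_add, MP.eval_mul, MP.eval_smul, MP.eval_const, MP.eval_var,
    eval_lift_coord, eval_dirD b0 b1 b2 b3 D.p pR _ r0 r1 r2,
    eval_dirD b0 b1 b2 b3 D.q pT _ t0 t1 t2, rate, coord8]
  rw [show MP.eval 6 (fun i => coord i (b0, b1, b2)) (ofList D.p) = polyFun D.p (b0, b1, b2)
    from rfl, show MP.eval 6 (fun i => coord i (b0, b1, b2)) (ofList D.q) =
      polyFun D.q (b0, b1, b2) from rfl]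
  field_simp
  ring

theorem lt_of_check {v : ℕ → ℝ} (hv : ∀ i, |v i| ≤ 1) {p s : R8} {E : ℕ}
    (hs : 0 ≤ MP.eval 8 v s)
    (h : Nat.blt (MP.l1 8 (MP.add 8 p
      (MP.add 8 (MP.smul (-1) 8 s) (MP.const (-(E : ℤ)) 8)))) E = true) :
    1 ≤ MP.eval 8 v p := by
  have h0 : MP.l1 8 (MP.add 8 p (MP.add 8 (MP.smul (-1) 8 s) (MP.const (-(E : ℤ)) 8))) + 1 ≤ E :=
    (Nat.le_of_ble_eq_true h)
  have h1 := (abs_le.1 (MP.abs_eval_le v hv 8
    (MP.add 8 p (MP.add 8 (MP.smul (-1) 8 s) (MP.const (-(E : ℤ)) 8))))).1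
  have h2 : (MP.l1 8 (MP.add 8 p (MP.add 8 (MP.smul (-1) 8 s) (MP.const (-(E : ℤ)) 8))) : ℝ) + 1 ≤
      E := by exact_mod_cast h0
  simp [MP.eval_add, MP.eval_smul, MP.eval_const] at h1
  linarith

/-- A checked certificate is a certificate. -/
theorem cert_of_check (D : Data) (hden : 0 < D.den) (hsr : ∀ b ∈ D.sr, b.check = true)
    (hsp : ∀ b ∈ D.sp, b.check = true) (hr : D.checkRate = true) (hp : D.checkPos = true) :
    Cert (-(D.tn : ℝ) / D.den) ((D.an : ℝ) / D.den) (polyFun D.p) (polyFun D.q) := by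
  refine ⟨contDiff_polyFun _, contDiff_polyFun _, 1 / (4 * D.den), by positivity,
    fun b0 b1 b2 b3 hb => ?_⟩
  have hd : (1 : ℝ) ≤ D.den := Nat.one_le_cast.2 hden
  have h1 := lt_of_check (coord8_le b0 b1 b2 b3 hb) (squares_nonneg b0 b1 b2 b3 hb D.sp hsp) hp
  have h2 := lt_of_check (coord8_le b0 b1 b2 b3 hb) (squares_nonneg b0 b1 b2 b3 hb D.sr hsr) hr
  rw [eval_lift_coord] at h1
  rw [eval_ratePoly b0 b1 b2 b3 D hden] at h2
  refine ⟨le_trans ?_ h1, ?_⟩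
  · rw [div_le_one (by positivity)]
    linarith
  · rw [div_le_iff₀ (by positivity)]
    linarith

end Vale.Agent.P142J
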