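import Mathlib
import Vale.Agent.P142.Mean
import Vale.Agent.P142J.AreaTheorem

/-!
# The jets of a univalent map and their derivatives
-/

namespace Vale.Agent.P142J

open Complex Metric Set
open scoped ComplexConjugate

/-- The automorphism of the disc taking `0` to `r e`. -/
noncomputable def mob (e : ℂ) (r : ℝ) (w : ℂ) : ℂ := e * ((w + r) / (1 + r * w))

theorem mob_den {r : ℝ} (hr : |r| < 1) {w : ℂ} (hw : w ∈ ball (0 : ℂ) 1) : (1 : ℂ) + r * w ≠ 0 := by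
  intro h
  have h1 : ‖(r : ℂ) * w‖ = 1 := by
    rw [show (r : ℂ) * w = -1 by linear_combination h, norm_neg, norm_one]
  rw [norm_mul, norm_real, Real.norm_eq_abs] at h1
  have h2 : ‖w‖ < 1 := mem_ball_zero_iff.1 hw
  nlinarith [abs_nonneg r, norm_nonneg w]

theorem mob_mem {e : ℂ} (he : ‖e‖ = 1) {r : ℝ} (hr : |r| < 1) {w : ℂ} (hw : w ∈ ball (0 : ℂ) 1) :
    mob e r w ∈ ball (0 : ℂ) 1 := by
  have hd := norm_pos_iff.2 (mob_den hr hw)
  have hw1 : ‖w‖ < 1 := mem_ball_zero_iff.1 hw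
  rw [mem_ball_zero_iff, mob, norm_mul, he, one_mul, norm_div, div_lt_one hd]
  have e2 : ‖(1 : ℂ) + r * w‖ ^ 2 - ‖w + r‖ ^ 2 = (1 - r ^ 2) * (1 - ‖w‖ ^ 2) := by
    simp only [Complex.sq_norm, Complex.normSq_apply]
    simp
    ring
  have h3 : 0 < (1 - r ^ 2) * (1 - ‖w‖ ^ 2) := by
    apply mul_pos
    · nlinarith [sq_abs r, abs_nonneg r]
    · nlinarith [norm_nonneg w]
  nlinarith [norm_nonneg (w + (r : ℂ)), norm_nonneg ((1 : ℂ) + r * w)]

theorem hasDerivAt_mob (e : ℂ) {r : ℝ} (hr : |r| < 1) {w : ℂ} (hw : w ∈ ball (0 : ℂ) 1) :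
    HasDerivAt (mob e r) (e * (1 - (r : ℂ) ^ 2) * ((1 + r * w)⁻¹) ^ 2) w := by
  have h := ((((hasDerivAt_id w).add_const (r : ℂ)).div
    (((hasDerivAt_id w).const_mul (r : ℂ)).const_add 1) (mob_den hr hw)).const_mul e)
  refine h.congr_deriv ?_
  simp only [id, mul_one, inv_pow]
  field_simp
  ring

theorem mob_inj {e : ℂ} (he : ‖e‖ = 1) {r : ℝ} (hr : |r| < 1) : InjOn (mob e r) (ball 0 1) := by
  intro w hw w' hw' h
  have he0 : e ≠ 0 := fun h0 => by simp [h0] at he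
  have h1 := mul_left_cancel₀ he0 h
  rw [div_eq_div_iff (mob_den hr hw) (mob_den hr hw')] at h1
  have h2 : (w - w') * (1 - (r : ℂ) ^ 2) = 0 := by linear_combination h1
  refine sub_eq_zero.1 ((mul_eq_zero.1 h2).resolve_right ?_)
  exact_mod_cast (show (1 : ℝ) - r ^ 2 ≠ 0 by nlinarith [sq_abs r, abs_nonneg r])

theorem norm_dir (θ : ℝ) : ‖dir θ‖ = 1 := norm_exp_ofReal_mul_I θ

theorem hasDerivAt_dir (θ : ℝ) : HasDerivAt dir (I * dir θ) θ := by
  have h := (((hasDerivAt_id (θ : ℂ)).mul_const I).cexp).comp_ofReal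
  exact h.congr_deriv (by simp [dir]; ring)

theorem point_mem {r : ℝ} (hr : r ∈ Ioo (-1 : ℝ) 1) (θ : ℝ) : (r : ℂ) * dir θ ∈ ball (0 : ℂ) 1 :=
  P142.pt_mem (abs_lt.2 hr) θ

theorem hasDerivAt_norm_rpow (t : ℝ) {p : ℝ → ℂ} {k : ℂ} {x : ℝ} (hp : HasDerivAt p (p x * k) x)
    (h0 : p x ≠ 0) : HasDerivAt (fun s => ‖p s‖ ^ t) (t * k.re * ‖p x‖ ^ t) x := by
  have hpos : 0 < ‖p x‖ := norm_pos_iff.2 h0
  have h := (P142.hasDerivAt_normSq hp).rpow_const (p := t / 2) (Or.inl (pow_ne_zero 2 hpos.ne'))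
  have e : ∀ a : ℝ, 0 ≤ a → ∀ y : ℝ, (a ^ 2) ^ y = a ^ (2 * y) := fun a ha y => by
    rw [← Real.rpow_natCast a 2, ← Real.rpow_mul ha]
    norm_num
  have hfun : (fun s => ‖p s‖ ^ t) = fun s => (‖p s‖ ^ 2) ^ (t / 2) := by
    funext s
    rw [e _ (norm_nonneg _), mul_div_cancel₀ t two_ne_zero]
  rw [hfun]
  refine h.congr_deriv ?_
  rw [← mul_assoc (conj (p x)), Complex.conj_mul', ← ofReal_pow, re_ofReal_mul,
    e _ (norm_nonneg _), mul_sub, mul_one, mul_div_cancel₀ t two_ne_zero, Real.rpow_sub hpos,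
    Real.rpow_two]
  field_simp

variable {f : ℂ → ℂ} (hf : DifferentiableOn ℂ f (ball 0 1)) (hinj : InjOn f (ball 0 1))
include hf hinj

theorem diff_jets :
    DifferentiableOn ℂ (pre f) (ball 0 1) ∧ DifferentiableOn ℂ (schw f) (ball 0 1) ∧
      DifferentiableOn ℂ (deriv (schw f)) (ball 0 1) ∧
      DifferentiableOn ℂ (deriv (deriv (schw f))) (ball 0 1) := by
  have h1 : DifferentiableOn ℂ (deriv f) (ball 0 1) := hf.deriv isOpen_ball
  have hp : DifferentiableOn ℂ (pre f) (ball 0 1) :=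
    (h1.deriv isOpen_ball).div h1 (deriv_ne_zero hf hinj)
  have hs : DifferentiableOn ℂ (schw f) (ball 0 1) :=
    (hp.deriv isOpen_ball).sub ((hp.pow 2).div_const 2)
  exact ⟨hp, hs, hs.deriv isOpen_ball, (hs.deriv isOpen_ball).deriv isOpen_ball⟩

theorem derivs_at {z : ℂ} (hz : z ∈ ball (0 : ℂ) 1) :
    HasDerivAt (deriv f) (deriv f z * pre f z) z ∧
      HasDerivAt (pre f) (schw f z + pre f z ^ 2 / 2) z ∧
      HasDerivAt (schw f) (deriv (schw f) z) z ∧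
      HasDerivAt (deriv (schw f)) (deriv (deriv (schw f)) z) z := by
  obtain ⟨hp, hs, hs1, -⟩ := diff_jets hf hinj
  have hm := isOpen_ball.mem_nhds hz
  refine ⟨?_, ?_, (hs.differentiableAt hm).hasDerivAt, (hs1.differentiableAt hm).hasDerivAt⟩
  · refine ((hf.deriv isOpen_ball).differentiableAt hm).hasDerivAt.congr_deriv ?_
    rw [pre, mul_div_cancel₀ _ (deriv_ne_zero hf hinj z hz)]
  · exact (hp.differentiableAt hm).hasDerivAt.congr_deriv (by simp [schw])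

theorem body_jet {r : ℝ} (hr : r ∈ Ico (0 : ℝ) 1) (θ : ℝ) :
    Body (jet0 f r θ) (jet1 f r θ) (jet2 f r θ) (jet3 f r θ) := by
  have hr' : |r| < 1 := abs_lt.2 ⟨by linarith [hr.1], hr.2⟩
  set e := dir θ with hedef
  have he : ‖e‖ = 1 := norm_dir θ
  have he0 : e ≠ 0 := fun h0 => by simp [h0] at he
  set u : ℂ := 1 - (r : ℂ) ^ 2
  have hu : u ≠ 0 := by
    simp only [u]
    exact_mod_cast (show (1 : ℝ) - r ^ 2 ≠ 0 by nlinarith [hr.1, hr.2])
  set g : ℂ → ℂ := fun w => f (mob e r w)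
  have hgd : DifferentiableOn ℂ g (ball 0 1) := hf.comp
    (fun w hw => (hasDerivAt_mob e hr' hw).differentiableAt.differentiableWithinAt)
    fun w hw => mob_mem he hr' hw
  have hgi : InjOn g (ball 0 1) := hinj.comp (mob_inj he hr') fun w hw => mob_mem he hr' hw
  set q : ℂ → ℂ := fun w => (1 + r * w)⁻¹
  set g1 : ℂ → ℂ := fun w => deriv f (mob e r w) * (e * u * q w ^ 2)
  set P : ℂ → ℂ := fun w => e * u * pre f (mob e r w) * q w ^ 2 - 2 * r * q w
  set S : ℂ → ℂ := fun w => e ^ 2 * u ^ 2 * schw f (mob e r w) * q w ^ 4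
  set S1 : ℂ → ℂ := fun w => e ^ 3 * u ^ 3 * deriv (schw f) (mob e r w) * q w ^ 6 -
    4 * r * e ^ 2 * u ^ 2 * schw f (mob e r w) * q w ^ 5
  set S2 : ℂ → ℂ := fun w => e ^ 4 * u ^ 4 * deriv (deriv (schw f)) (mob e r w) * q w ^ 8 -
    10 * r * e ^ 3 * u ^ 3 * deriv (schw f) (mob e r w) * q w ^ 7 +
    20 * r ^ 2 * e ^ 2 * u ^ 2 * schw f (mob e r w) * q w ^ 6
  have hd : ∀ w ∈ ball (0 : ℂ) 1, HasDerivAt g (g1 w) w ∧ HasDerivAt g1 (g1 w * P w) w ∧
      HasDerivAt P (S w + P w ^ 2 / 2) w ∧ HasDerivAt S (S1 w) w ∧ HasDerivAt S1 (S2 w) w := by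
    intro w hw
    have hz := mob_mem he hr' hw
    have hφ := hasDerivAt_mob e hr' hw
    obtain ⟨d1, d2, d3, d4⟩ := derivs_at hf hinj hz
    have hq : HasDerivAt q (-(r : ℂ) * q w ^ 2) w := by
      refine ((((hasDerivAt_id w).const_mul (r : ℂ)).const_add 1).inv (mob_den hr' hw)).congr_deriv ?_
      simp only [q, id, mul_one, inv_pow]
      ring
    refine ⟨((hf.differentiableAt (isOpen_ball.mem_nhds hz)).hasDerivAt.comp w hφ), ?_, ?_, ?_, ?_⟩
    · exact ((d1.comp w hφ).mul ((hq.pow 2).const_mul (e * u))).congr_deriv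
        (by simp only [g1, P, q, u, Function.comp, Pi.pow_apply]; push_cast; ring)
    · exact ((((d2.comp w hφ).const_mul (e * u)).mul (hq.pow 2)).sub (hq.const_mul (2 * (r : ℂ)))).congr_deriv
        (by simp only [S, P, q, u, Function.comp, Pi.pow_apply]; push_cast; ring)
    · exact (((d3.comp w hφ).const_mul (e ^ 2 * u ^ 2)).mul (hq.pow 4)).congr_deriv
        (by simp only [S1, q, u, Function.comp, Pi.pow_apply]; push_cast; ring)
    · exact ((((d4.comp w hφ).const_mul (e ^ 3 * u ^ 3)).mul (hq.pow 6)).sub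
        (((d3.comp w hφ).const_mul (4 * (r : ℂ) * e ^ 2 * u ^ 2)).mul (hq.pow 5))).congr_deriv
        (by simp only [S2, q, u, Function.comp, Pi.pow_apply]; push_cast; ring)
  have step : ∀ {G G' H : ℂ → ℂ}, EqOn G H (ball 0 1) →
      (∀ w ∈ ball (0 : ℂ) 1, HasDerivAt H (G' w) w) → EqOn (deriv G) G' (ball 0 1) :=
    fun hGH hH w hw =>
      ((hH w hw).congr_of_eventuallyEq (hGH.eventuallyEq_of_mem (isOpen_ball.mem_nhds hw))).deriv
  have e1 := step (G := g) (H := g) (G' := g1) (eqOn_refl g _) fun w hw => (hd w hw).1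
  have e2 := step (G' := fun w => g1 w * P w) e1 fun w hw => (hd w hw).2.1
  have e3 := step (G' := fun w => g1 w * (S w + 3 / 2 * P w ^ 2)) e2 fun w hw => by
    obtain ⟨-, dg, dP, -, -⟩ := hd w hw
    exact (dg.mul dP).congr_deriv (by ring)
  have e4 := step (G' := fun w => g1 w * (S1 w + 4 * P w * S w + 3 * P w ^ 3)) e3 fun w hw => by
    obtain ⟨-, dg, dP, dS, -⟩ := hd w hw
    exact (dg.mul (dS.add ((dP.pow 2).const_mul (3 / 2)))).congr_deriv
      (by simp only [Pi.add_apply, Pi.pow_apply]; push_cast; ring)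
  have e5 := step (G' := fun w => g1 w *
      (S2 w + 5 * P w * S1 w + 4 * S w ^ 2 + 15 * P w ^ 2 * S w + 15 / 2 * P w ^ 4)) e4 fun w hw => by
    obtain ⟨-, dg, dP, dS, dS1⟩ := hd w hw
    exact (dg.mul ((dS1.add ((dP.const_mul 4).mul dS)).add ((dP.pow 3).const_mul 3))).congr_deriv
      (by simp only [Pi.add_apply, Pi.mul_apply, Pi.pow_apply]; push_cast; ring)
  have h0 : (0 : ℂ) ∈ ball (0 : ℂ) 1 := mem_ball_self one_pos
  have hq0 : q 0 = 1 := by simp [q]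
  have hφ0 : mob e r 0 = r * e := by simp [mob, mul_comm]
  have hg0 : g1 0 ≠ 0 := by
    simp only [g1, hq0, hφ0, one_pow, mul_one]
    exact mul_ne_zero (deriv_ne_zero hf hinj _ (hφ0 ▸ mob_mem he hr' h0)) (mul_ne_zero he0 hu)
  have hjet : P 0 = -2 * jet0 f r θ ∧ S 0 = -6 * jet1 f r θ ∧ S1 0 = -24 * jet2 f r θ ∧
      S2 0 = -120 * jet3 f r θ - 24 * jet1 f r θ ^ 2 := by
    simp only [P, S, S1, S2, hq0, hφ0, jet0, jet1, jet2, jet3, ← hedef, u]
    push_cast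
    refine ⟨?_, ?_, ?_, ?_⟩ <;> ring
  obtain ⟨hP0, hS0, hS10, hS20⟩ := hjet
  have c2 : coef g 2 = P 0 / 2 := by
    simp only [coef, iteratedDeriv_succ, iteratedDeriv_zero, e1 h0, e2 h0, Nat.factorial]
    field_simp
    push_cast
    ring
  have c3 : coef g 3 = (S 0 + 3 / 2 * P 0 ^ 2) / 6 := by
    simp only [coef, iteratedDeriv_succ, iteratedDeriv_zero, e1 h0, e3 h0, Nat.factorial]
    field_simp
    push_cast
    ring
  have c4 : coef g 4 = (S1 0 + 4 * P 0 * S 0 + 3 * P 0 ^ 3) / 24 := by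
    simp only [coef, iteratedDeriv_succ, iteratedDeriv_zero, e1 h0, e4 h0, Nat.factorial]
    field_simp
    push_cast
    ring
  have c5 : coef g 5 = (S2 0 + 5 * P 0 * S1 0 + 4 * S 0 ^ 2 + 15 * P 0 ^ 2 * S 0 +
      15 / 2 * P 0 ^ 4) / 120 := by
    simp only [coef, iteratedDeriv_succ, iteratedDeriv_zero, e1 h0, e5 h0, Nat.factorial]
    field_simp
    push_cast
    ring
  have h := body_coef hgd hgi
  rw [c2, c3, c4, c5, hP0, hS0, hS10, hS20] at h
  convert h using 1 <;> ring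

theorem hasDerivAt_jets_r {r : ℝ} (hr : r ∈ Ioo (-1 : ℝ) 1) (θ : ℝ) :
    HasDerivAt (fun s => (jet0 f s θ, jet1 f s θ, jet2 f s θ))
      ((2 / (1 - r ^ 2)) • dR (jet0 f r θ) (jet1 f r θ) (jet2 f r θ) (jet3 f r θ)) r := by
  have hz := point_mem hr θ
  obtain ⟨-, d2, d3, d4⟩ := derivs_at hf hinj hz
  have hu : (1 : ℂ) - (r : ℂ) ^ 2 ≠ 0 := by
    exact_mod_cast (show (1 : ℝ) - r ^ 2 ≠ 0 by nlinarith [hr.1, hr.2])
  have hs : HasDerivAt (fun s : ℝ => (s : ℂ)) 1 r := (hasDerivAt_id (r : ℂ)).comp_ofReal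
  have hu' := (hs.pow 2).const_sub (1 : ℂ)
  have hA := P142.hasDerivAt_pt_left (r := r) (θ := θ) d2
  have hB := P142.hasDerivAt_pt_left (r := r) (θ := θ) d3
  have hB' := P142.hasDerivAt_pt_left (r := r) (θ := θ) d4
  simp only [jet0, jet1, jet2, jet3, ofReal_pow, ofReal_sub, ofReal_div, ofReal_one, ofReal_ofNat]
  refine ((hs.sub (((hu'.div_const 2).const_mul (dir θ)).mul hA)).prodMk
    (((((hu'.pow 2).const_mul (dir θ ^ 2)).mul hB).neg.div_const 6).prodMk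
      (((((hu'.pow 3).const_mul (dir θ ^ 3)).mul hB').sub
        ((hs.const_mul (4 : ℂ)).mul (((hu'.pow 2).const_mul (dir θ ^ 2)).mul hB))).neg.div_const
          24))).congr_deriv ?_
  simp only [dR, Prod.smul_mk, Complex.real_smul, P142.pt, ← dir.eq_def, Pi.pow_apply, Pi.mul_apply]
  push_cast
  refine Prod.ext ?_ (Prod.ext ?_ ?_) <;> · simp only []; field_simp; ring

theorem hasDerivAt_jets_t {r : ℝ} (hr : r ∈ Ioo (-1 : ℝ) 1) (θ : ℝ) :
    HasDerivAt (fun s => (jet0 f r s, jet1 f r s, jet2 f r s))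
      ((2 / (1 - r ^ 2)) • dT r (jet0 f r θ) (jet1 f r θ) (jet2 f r θ) (jet3 f r θ)) θ := by
  have hz := point_mem hr θ
  obtain ⟨-, d2, d3, d4⟩ := derivs_at hf hinj hz
  have hu : (1 : ℂ) - (r : ℂ) ^ 2 ≠ 0 := by
    exact_mod_cast (show (1 : ℝ) - r ^ 2 ≠ 0 by nlinarith [hr.1, hr.2])
  have he := hasDerivAt_dir θ
  have hA := P142.hasDerivAt_pt_right (r := r) (θ := θ) d2
  have hB := P142.hasDerivAt_pt_right (r := r) (θ := θ) d3
  have hB' := P142.hasDerivAt_pt_right (r := r) (θ := θ) d4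
  simp only [jet0, jet1, jet2, jet3, ofReal_pow, ofReal_sub, ofReal_div, ofReal_one, ofReal_ofNat]
  refine ((((he.mul_const ((1 - (r : ℂ) ^ 2) / 2)).mul hA).const_sub (r : ℂ)).prodMk
    (((((he.pow 2).mul_const ((1 - (r : ℂ) ^ 2) ^ 2)).mul hB).neg.div_const 6).prodMk
      (((((he.pow 3).mul_const ((1 - (r : ℂ) ^ 2) ^ 3)).mul hB').sub
        ((((he.pow 2).mul_const ((1 - (r : ℂ) ^ 2) ^ 2)).mul hB).const_mul (4 * (r : ℂ)))).neg.div_const
          24))).congr_deriv ?_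
  simp only [dT, Prod.smul_mk, Complex.real_smul, P142.pt, ← dir.eq_def, Pi.pow_apply]
  push_cast
  refine Prod.ext ?_ (Prod.ext ?_ ?_) <;> · simp only []; field_simp; ring

theorem hasDerivAt_weight_r (t : ℝ) {r : ℝ} (hr : r ∈ Ioo (-1 : ℝ) 1) (θ : ℝ) :
    HasDerivAt (fun s => ‖deriv f (P142.pt s θ)‖ ^ t)
      (2 / (1 - r ^ 2) * (t * (r - (jet0 f r θ).re)) * ‖deriv f (P142.pt r θ)‖ ^ t) r := by
  have hz := point_mem hr θ
  have h := P142.hasDerivAt_pt_left (r := r) (θ := θ) (derivs_at hf hinj hz).1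
  rw [mul_assoc] at h
  refine (hasDerivAt_norm_rpow t h (deriv_ne_zero hf hinj _ hz)).congr_deriv ?_
  have hu : (1 : ℝ) - r ^ 2 ≠ 0 := by nlinarith [hr.1, hr.2]
  simp [jet0, P142.pt, ← dir.eq_def, mul_re, mul_im, sq]
  left
  field_simp

theorem hasDerivAt_weight_t (t : ℝ) {r : ℝ} (hr : r ∈ Ioo (-1 : ℝ) 1) (θ : ℝ) :
    HasDerivAt (fun s => ‖deriv f (P142.pt r s)‖ ^ t)
      (2 / (1 - r ^ 2) * (t * r * (jet0 f r θ).im) * ‖deriv f (P142.pt r θ)‖ ^ t) θ := by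
  have hz := point_mem hr θ
  have h := P142.hasDerivAt_pt_right (r := r) (θ := θ) (derivs_at hf hinj hz).1
  rw [mul_assoc] at h
  refine (hasDerivAt_norm_rpow t h (deriv_ne_zero hf hinj _ hz)).congr_deriv ?_
  have hu : (1 : ℝ) - r ^ 2 ≠ 0 := by nlinarith [hr.1, hr.2]
  simp [jet0, P142.pt, ← dir.eq_def, mul_re, mul_im, sq]
  left
  field_simp
  ring

theorem continuousOn_jets :
    ContinuousOn (fun p : ℝ × ℝ =>
        (jet0 f p.1 p.2, jet1 f p.1 p.2, jet2 f p.1 p.2, jet3 f p.1 p.2))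
      (Ioo (-1 : ℝ) 1 ×ˢ univ) := by
  obtain ⟨hp, hs, hs1, hs2⟩ := diff_jets hf hinj
  have h0 := P142.continuousOn_pt hp.continuousOn
  have h1 := P142.continuousOn_pt hs.continuousOn
  have h2 := P142.continuousOn_pt hs1.continuousOn
  have h3 := P142.continuousOn_pt hs2.continuousOn
  simp only [P142.pt, ← dir.eq_def] at h0 h1 h2 h3
  have hdir : Continuous dir := (Complex.continuous_ofReal.mul continuous_const).cexp
  simp only [jet0, jet1, jet2, jet3]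
  fun_prop

theorem jets_periodic (r θ : ℝ) :
    jet0 f r (θ + 2 * Real.pi) = jet0 f r θ ∧ jet1 f r (θ + 2 * Real.pi) = jet1 f r θ ∧
      jet2 f r (θ + 2 * Real.pi) = jet2 f r θ := by
  have h : dir (θ + 2 * Real.pi) = dir θ := by
    simp [dir, add_mul, Complex.exp_add, Complex.exp_two_pi_mul_I]
  simp [jet0, jet1, jet2, h]

end Vale.Agent.P142J
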