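import Mathlib
import Vale.Agent.P142.Area
import Vale.Agent.P142J.Jets

/-!
# From a certificate to integral means and area integrals

With `K = 2 / (1 - r^2)` the radial derivative of the mean of `P ‖f'‖^t` is `K α` times the mean
minus `K` times the mean of the defect, up to an exact angular derivative, and the defect is
nonnegative near the boundary.
-/

namespace Vale.Agent.P142J

open Complex Metric Set MeasureTheory Filter Topology
open scoped Real ENNReal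

variable {t α : ℝ} {P Q : ℂ × ℂ × ℂ → ℝ}

lemma isCompact_body : IsCompact {b : ℂ × ℂ × ℂ × ℂ | Body b.1 b.2.1 b.2.2.1 b.2.2.2} := by
  refine IsCompact.of_isClosed_subset ((isCompact_closedBall (0 : ℂ) 2).prod
    ((isCompact_closedBall (0 : ℂ) 1).prod ((isCompact_closedBall (0 : ℂ) 1).prod
      (isCompact_closedBall (0 : ℂ) 1)))) ?_ ?_
  · simp only [Body, ofPred_and]
    exact (isClosed_le (by fun_prop) continuous_const).inter
      (isClosed_le (by fun_prop) continuous_const)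
  · rintro ⟨b0, b1, b2, b3⟩ ⟨h1, h2⟩
    simp only [norm_div, RCLike.norm_ofNat] at h1 h2
    have k1 := sq_nonneg ‖b1‖
    have k2 := sq_nonneg ‖b2‖
    have k3 := sq_nonneg ‖b3‖
    refine ⟨?_, ?_, ?_, ?_⟩ <;> simp only [mem_closedBall_zero_iff]
    · have : (‖b0‖ / 2) ^ 2 ≤ 1 := le_trans (by
        linarith [sq_nonneg ‖b1 / 2 - b0 ^ 2 / 8‖,
          sq_nonneg ‖b2 / 2 - b0 * b1 / 4 + b0 ^ 3 / 16‖,
          sq_nonneg ‖b3 / 2 - (b0 * b2 + b1 ^ 2 / 2) / 4 + 3 / 16 * b0 ^ 2 * b1 -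
            5 / 128 * b0 ^ 4‖]) h2
      nlinarith [norm_nonneg b0]
    all_goals nlinarith [norm_nonneg b1, norm_nonneg b2, norm_nonneg b3]

lemma continuous_rate (hP : ContDiff ℝ 1 P) (hQ : ContDiff ℝ 1 Q) :
    Continuous fun x : ℝ × ℂ × ℂ × ℂ × ℂ =>
      rate t α P Q x.1 x.2.1 x.2.2.1 x.2.2.2.1 x.2.2.2.2 := by
  have hp : Continuous fun x : ℝ × ℂ × ℂ × ℂ × ℂ => ((x.2.1, x.2.2.1, x.2.2.2.1) : ℂ × ℂ × ℂ) := by
    fun_prop
  have dP := ((hP.continuous_fderiv one_ne_zero).comp hp).clm_apply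
    (g := fun x => dR x.2.1 x.2.2.1 x.2.2.2.1 x.2.2.2.2) (by unfold dR; fun_prop)
  have dQ := ((hQ.continuous_fderiv one_ne_zero).comp hp).clm_apply
    (g := fun x => dT x.1 x.2.1 x.2.2.1 x.2.2.2.1 x.2.2.2.2) (by unfold dT; fun_prop)
  simp only [Function.comp_def] at dP dQ
  have cP : Continuous fun x : ℝ × ℂ × ℂ × ℂ × ℂ => P (x.2.1, x.2.2.1, x.2.2.2.1) :=
    hP.continuous.comp hp
  have cQ : Continuous fun x : ℝ × ℂ × ℂ × ℂ × ℂ => Q (x.2.1, x.2.2.1, x.2.2.2.1) :=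
    hQ.continuous.comp hp
  unfold rate
  fun_prop

/-- The defect is nonnegative on the body near the boundary of the disc. -/
lemma rate_nonneg_near (h : Cert t α P Q) :
    ∃ r0 : ℝ, 0 ≤ r0 ∧ r0 < 1 ∧ ∀ r ∈ Icc r0 1, ∀ b0 b1 b2 b3 : ℂ, Body b0 b1 b2 b3 →
      0 ≤ rate t α P Q r b0 b1 b2 b3 := by
  obtain ⟨hP, hQ, ε, hε, hb⟩ := h
  have hev : ∀ᶠ r in 𝓝 (1 : ℝ), ∀ b ∈ {b : ℂ × ℂ × ℂ × ℂ | Body b.1 b.2.1 b.2.2.1 b.2.2.2},
      0 < rate t α P Q r b.1 b.2.1 b.2.2.1 b.2.2.2 := by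
    refine isCompact_body.eventually_forall_of_forall_eventually fun b hbm => ?_
    exact (continuous_rate hP hQ).continuousAt.eventually_const_lt
      (hε.trans_le (hb b.1 b.2.1 b.2.2.1 b.2.2.2 hbm).2)
  obtain ⟨δ, hδ, hδb⟩ := Metric.eventually_nhds_iff.1 hev
  refine ⟨max (1 - δ / 2) 0, le_max_right _ _, max_lt (by linarith) one_pos,
    fun r hr b0 b1 b2 b3 hB => (hδb ?_ (b0, b1, b2, b3) hB).le⟩
  rw [Real.dist_eq, abs_lt]
  have := (le_max_left (1 - δ / 2) 0).trans hr.1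
  constructor <;> linarith [hr.2]

/-- The mean of `P ‖f'‖^t` satisfies the growth inequality near the boundary. -/
lemma mean_growth (hP : ContDiff ℝ 1 P) (hQ : ContDiff ℝ 1 Q) {ε r0 : ℝ}
    (hb : ∀ b0 b1 b2 b3 : ℂ, Body b0 b1 b2 b3 → ε ≤ P (b0, b1, b2)) (hr00 : 0 ≤ r0)
    (hrate : ∀ r ∈ Icc r0 1, ∀ b0 b1 b2 b3 : ℂ, Body b0 b1 b2 b3 →
      0 ≤ rate t α P Q r b0 b1 b2 b3)
    {f : ℂ → ℂ} (hf : DifferentiableOn ℂ f (ball 0 1)) (hinj : InjOn f (ball 0 1)) :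
    ∃ m m' : ℝ → ℝ, (∀ r ∈ Ioo (-1 : ℝ) 1, HasDerivAt m (m' r) r) ∧
      (∀ r ∈ Ico r0 1, m' r ≤ 2 / (1 - r ^ 2) * α * m r) ∧
      ∀ r ∈ Ico (0 : ℝ) 1, ε * ∫ θ in (-π)..π, ‖deriv f (P142.pt r θ)‖ ^ t ≤ m r := by
  set j : ℝ → ℝ → ℂ × ℂ × ℂ := fun r θ => (jet0 f r θ, jet1 f r θ, jet2 f r θ)
  set w : ℝ → ℝ → ℝ := fun r θ => ‖deriv f (P142.pt r θ)‖ ^ t with hw
  set G : ℝ → ℝ → ℝ := fun r θ => P (j r θ) * w r θ
  set G' : ℝ → ℝ → ℝ := fun r θ => 2 / (1 - r ^ 2) *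
    ((fderiv ℝ P (j r θ) (dR (jet0 f r θ) (jet1 f r θ) (jet2 f r θ) (jet3 f r θ)) +
      t * (r - (jet0 f r θ).re) * P (j r θ)) * w r θ)
  set H' : ℝ → ℝ → ℝ := fun r θ => 2 / (1 - r ^ 2) *
    ((fderiv ℝ Q (j r θ) (dT r (jet0 f r θ) (jet1 f r θ) (jet2 f r θ) (jet3 f r θ)) +
      t * r * (jet0 f r θ).im * Q (j r θ)) * w r θ)
  set S : Set (ℝ × ℝ) := Ioo (-1 : ℝ) 1 ×ˢ univ
  have hJ := continuousOn_jets hf hinj
  have hj : ContinuousOn (fun p : ℝ × ℝ => j p.1 p.2) S :=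
    hJ.fst.prodMk (hJ.snd.fst.prodMk hJ.snd.snd.fst)
  have hwc : ContinuousOn (fun p : ℝ × ℝ => w p.1 p.2) S :=
    (P142.continuousOn_pt (hf.deriv isOpen_ball).continuousOn).norm.rpow_const fun p hp =>
      Or.inl (norm_ne_zero_iff.2 (deriv_ne_zero hf hinj _
        (P142.pt_mem (abs_lt.2 ⟨hp.1.1, hp.1.2⟩) p.2)))
  have hGc : ContinuousOn (fun p : ℝ × ℝ => G p.1 p.2) S :=
    (hP.continuous.comp_continuousOn hj).mul hwc
  have hK : ContinuousOn (fun p : ℝ × ℝ => 2 / (1 - p.1 ^ 2)) S :=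
    continuousOn_const.div (by fun_prop) fun p hp => by
      obtain ⟨a, b⟩ := hp.1
      have : 0 < 1 - p.1 ^ 2 := by nlinarith
      exact this.ne'
  have c0 : ContinuousOn (fun p : ℝ × ℝ => jet0 f p.1 p.2) S := hJ.fst
  have hdR : ContinuousOn (fun p : ℝ × ℝ =>
      dR (jet0 f p.1 p.2) (jet1 f p.1 p.2) (jet2 f p.1 p.2) (jet3 f p.1 p.2)) S := by
    have hc : Continuous fun x : ℂ × ℂ × ℂ × ℂ => dR x.1 x.2.1 x.2.2.1 x.2.2.2 := by
      unfold dR; fun_prop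
    have := Continuous.comp_continuousOn hc hJ
    simp only [Function.comp_def] at this
    exact this
  have hdT : ContinuousOn (fun p : ℝ × ℝ =>
      dT p.1 (jet0 f p.1 p.2) (jet1 f p.1 p.2) (jet2 f p.1 p.2) (jet3 f p.1 p.2)) S := by
    have hc : Continuous fun x : ℝ × ℂ × ℂ × ℂ × ℂ =>
        dT x.1 x.2.1 x.2.2.1 x.2.2.2.1 x.2.2.2.2 := by
      unfold dT; fun_prop
    have := Continuous.comp_continuousOn hc
      ((continuousOn_fst : ContinuousOn (Prod.fst : ℝ × ℝ → ℝ) S).prodMk hJ)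
    simp only [Function.comp_def] at this
    exact this
  have hG'c : ContinuousOn (fun p : ℝ × ℝ => G' p.1 p.2) S :=
    hK.mul (((((hP.continuous_fderiv one_ne_zero).comp_continuousOn hj).clm_apply hdR).add
      ((continuousOn_const.mul (continuousOn_fst.sub (continuous_re.comp_continuousOn c0))).mul
        (hP.continuous.comp_continuousOn hj))).mul hwc)
  have hH'c : ContinuousOn (fun p : ℝ × ℝ => H' p.1 p.2) S :=
    hK.mul (((((hQ.continuous_fderiv one_ne_zero).comp_continuousOn hj).clm_apply hdT).add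
      (((continuousOn_const.mul continuousOn_fst).mul (continuous_im.comp_continuousOn c0)).mul
        (hQ.continuous.comp_continuousOn hj))).mul hwc)
  have slice : ∀ {F : ℝ → ℝ → ℝ}, ContinuousOn (fun p : ℝ × ℝ => F p.1 p.2) S →
      ∀ r ∈ Ioo (-1 : ℝ) 1, Continuous (F r) := fun hF r hr =>
    hF.comp_continuous (continuous_const.prodMk continuous_id) fun θ => ⟨hr, mem_univ _⟩
  set m : ℝ → ℝ := fun r => ∫ θ in (-π)..π, G r θ
  set m' : ℝ → ℝ := fun r => ∫ θ in (-π)..π, G' r θ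
  have hGd : ∀ r ∈ Ioo (-1 : ℝ) 1, ∀ θ, HasDerivAt (fun s => G s θ) (G' r θ) r := fun r hr θ => by
    have d1 : HasDerivAt (fun x => (jet0 f x θ, jet1 f x θ, jet2 f x θ))
        ((2 / (1 - r ^ 2)) • dR (jet0 f r θ) (jet1 f r θ) (jet2 f r θ) (jet3 f r θ)) r :=
      hasDerivAt_jets_r hf hinj hr θ
    have d2 : HasFDerivAt P (fderiv ℝ P (jet0 f r θ, jet1 f r θ, jet2 f r θ))
        (jet0 f r θ, jet1 f r θ, jet2 f r θ) :=
      ((hP.differentiable one_ne_zero) _).hasFDerivAt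
    have d3 : HasDerivAt (fun x => P (jet0 f x θ, jet1 f x θ, jet2 f x θ))
        (fderiv ℝ P (jet0 f r θ, jet1 f r θ, jet2 f r θ)
          ((2 / (1 - r ^ 2)) • dR (jet0 f r θ) (jet1 f r θ) (jet2 f r θ) (jet3 f r θ))) r :=
      HasFDerivAt.comp_hasDerivAt (f := fun x => (jet0 f x θ, jet1 f x θ, jet2 f x θ)) r d2 d1
    have d4 := d3.mul (hasDerivAt_weight_r hf hinj t hr θ)
    rw [map_smul, smul_eq_mul] at d4
    refine d4.congr_deriv ?_
    simp only [G', j, w]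
    ring
  have hm : ∀ r ∈ Ioo (-1 : ℝ) 1, HasDerivAt m (m' r) r := fun r hr =>
    P142.hasDerivAt_integral_param hGc hG'c hGd hr
  have hH0 : ∀ r ∈ Ioo (-1 : ℝ) 1, ∫ θ in (-π)..π, H' r θ = 0 := fun r hr => by
    have hd : ∀ θ, HasDerivAt (fun s => Q (j r s) * w r s) (H' r θ) θ := fun θ => by
      have d1 : HasDerivAt (fun x => (jet0 f r x, jet1 f r x, jet2 f r x))
          ((2 / (1 - r ^ 2)) • dT r (jet0 f r θ) (jet1 f r θ) (jet2 f r θ) (jet3 f r θ)) θ :=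
        hasDerivAt_jets_t hf hinj hr θ
      have d2 : HasFDerivAt Q (fderiv ℝ Q (jet0 f r θ, jet1 f r θ, jet2 f r θ))
          (jet0 f r θ, jet1 f r θ, jet2 f r θ) :=
        ((hQ.differentiable one_ne_zero) _).hasFDerivAt
      have d3 : HasDerivAt (fun x => Q (jet0 f r x, jet1 f r x, jet2 f r x))
          (fderiv ℝ Q (jet0 f r θ, jet1 f r θ, jet2 f r θ)
            ((2 / (1 - r ^ 2)) • dT r (jet0 f r θ) (jet1 f r θ) (jet2 f r θ) (jet3 f r θ))) θ :=
        HasFDerivAt.comp_hasDerivAt (f := fun x => (jet0 f r x, jet1 f r x, jet2 f r x)) θ d2 d1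
      have d4 := d3.mul (hasDerivAt_weight_t hf hinj t hr θ)
      rw [map_smul, smul_eq_mul] at d4
      refine d4.congr_deriv ?_
      simp only [H', j, w]
      ring
    rw [intervalIntegral.integral_eq_sub_of_hasDerivAt (fun θ _ => hd θ)
      ((slice hH'c r hr).intervalIntegrable _ _), sub_eq_zero]
    obtain ⟨e0, e1, e2⟩ := jets_periodic hf hinj r (-π)
    rw [show -π + 2 * π = π by ring] at e0 e1 e2
    simp only [j, w, e0, e1, e2, P142.pt_periodic]
  -- the differential inequality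
  have hineq : ∀ r ∈ Ico r0 1, m' r ≤ 2 / (1 - r ^ 2) * α * m r := fun r hr => by
    have hr' : r ∈ Ioo (-1 : ℝ) 1 := ⟨by linarith [hr.1], hr.2⟩
    have hK0 : 0 ≤ 2 / (1 - r ^ 2) := div_nonneg zero_le_two (by nlinarith [hr'.1, hr'.2])
    have hsum : m' r = ∫ θ in (-π)..π, (G' r θ + H' r θ) := by
      rw [intervalIntegral.integral_add ((slice hG'c r hr').intervalIntegrable _ _)
        ((slice hH'c r hr').intervalIntegrable _ _), hH0 r hr', add_zero]
    rw [hsum, ← intervalIntegral.integral_const_mul]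
    refine intervalIntegral.integral_mono_on (by linarith [Real.pi_pos])
      (((slice hG'c r hr').add (slice hH'c r hr')).intervalIntegrable _ _)
      (((slice hGc r hr').const_mul _).intervalIntegrable _ _) fun θ _ => ?_
    have hB := body_jet hf hinj ⟨hr00.trans hr.1, hr.2⟩ θ
    have := mul_nonneg hK0 (mul_nonneg (hrate r ⟨hr.1, hr.2.le⟩ _ _ _ _ hB)
      (Real.rpow_nonneg (norm_nonneg (deriv f (P142.pt r θ))) t))
    simp only [rate] at this
    simp only [G', H', G, j, w]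
    linear_combination this
  have hwle : ∀ r ∈ Ico (0 : ℝ) 1, ε * ∫ θ in (-π)..π, w r θ ≤ m r := fun r hr => by
    have hr' : r ∈ Ioo (-1 : ℝ) 1 := ⟨by linarith [hr.1], hr.2⟩
    rw [← intervalIntegral.integral_const_mul]
    exact intervalIntegral.integral_mono_on (by linarith [Real.pi_pos])
      (((slice hwc r hr').const_mul _).intervalIntegrable _ _)
      ((slice hGc r hr').intervalIntegrable _ _) fun θ _ =>
        mul_le_mul_of_nonneg_right (hb _ _ _ _ (body_jet hf hinj hr θ))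
          (Real.rpow_nonneg (norm_nonneg _) _)
  exact ⟨m, m', hm, hineq, hwle⟩

/-- Growth at most `(1 - r)^(-α)` from the differential inequality. -/
lemma growth_bound {m m' : ℝ → ℝ} {r0 : ℝ} (hr00 : 0 ≤ r0) (hr01 : r0 < 1)
    (hm : ∀ r ∈ Ioo (-1 : ℝ) 1, HasDerivAt m (m' r) r)
    (hineq : ∀ r ∈ Ico r0 1, m' r ≤ 2 / (1 - r ^ 2) * α * m r)
    (hm0 : ∀ r ∈ Ico (0 : ℝ) 1, 0 ≤ m r) :
    ∃ C : ℝ, ∀ r ∈ Ico (0 : ℝ) 1, m r * (1 - r) ^ α ≤ C := by
  set ψ : ℝ → ℝ := fun r => m r * ((1 - r) / (1 + r)) ^ α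
  have hψd : ∀ r ∈ Ico r0 1, HasDerivAt ψ
      ((m' r - 2 / (1 - r ^ 2) * α * m r) * ((1 - r) / (1 + r)) ^ α) r := fun r hr => by
    have hr' : r ∈ Ioo (-1 : ℝ) 1 := ⟨by linarith [hr.1], hr.2⟩
    have p1 : 0 < 1 - r := by linarith [hr'.2]
    have p2 : 0 < 1 + r := by linarith [hr'.1]
    have hq : HasDerivAt (fun s => (1 - s) / (1 + s)) (-2 / (1 + r) ^ 2) r := by
      refine ((hasDerivAt_id r).const_sub 1).div ((hasDerivAt_id r).const_add 1) p2.ne'
        |>.congr_deriv ?_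
      simp only [id_eq]
      ring
    refine ((hm r hr').mul (hq.rpow_const (Or.inl (div_pos p1 p2).ne'))).congr_deriv ?_
    rw [Real.rpow_sub_one (div_pos p1 p2).ne', show 1 - r ^ 2 = (1 - r) * (1 + r) by ring]
    field_simp
    ring
  have hanti : AntitoneOn ψ (Ico r0 1) := by
    refine antitoneOn_of_deriv_nonpos (convex_Ico r0 1)
      (fun r hr => (hψd r hr).continuousAt.continuousWithinAt)
      (fun r hr => (hψd r (interior_subset hr)).differentiableAt.differentiableWithinAt)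
      fun r hr => ?_
    rw [(hψd r (interior_subset hr)).deriv]
    have hr' := interior_subset hr
    exact mul_nonpos_of_nonpos_of_nonneg (sub_nonpos.2 (hineq r hr'))
      (Real.rpow_nonneg (div_nonneg (by linarith [hr'.2]) (by linarith [hr'.1])) _)
  obtain ⟨B, hB⟩ := (isCompact_Icc (a := (0 : ℝ)) (b := r0)).exists_bound_of_continuousOn
    (f := fun r => m r * (1 - r) ^ α) fun r hr => by
      refine (((hm r ⟨by linarith [hr.1], by linarith [hr.2]⟩).continuousAt).mul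
        ((continuousAt_const.sub continuousAt_id).rpow_const (Or.inl ?_))).continuousWithinAt
      simp only [Pi.sub_apply, id_eq]
      linarith [hr.2]
  refine ⟨max B (ψ r0 * max 1 ((2 : ℝ) ^ α)), fun r hr => ?_⟩
  have p1 : 0 < 1 - r := by linarith [hr.2]
  rcases le_or_gt r r0 with hle | hgt
  · exact le_max_of_le_left ((le_abs_self _).trans (hB r ⟨hr.1, hle⟩))
  · refine le_max_of_le_right ?_
    have p2 : 0 < 1 + r := by linarith [hr.1]
    have e : m r * (1 - r) ^ α = ψ r * (1 + r) ^ α := by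
      simp only [ψ]
      rw [Real.div_rpow p1.le p2.le, mul_assoc, div_mul_cancel₀ _ (Real.rpow_pos_of_pos p2 α).ne']
    rw [e]
    have hψ0 : 0 ≤ ψ r0 := mul_nonneg (hm0 r0 ⟨hr00, hr01⟩)
      (Real.rpow_nonneg (div_nonneg (by linarith) (by linarith)) _)
    refine mul_le_mul (hanti ⟨le_rfl, hr01⟩ ⟨hgt.le, hr.2⟩ hgt.le) ?_
      (Real.rpow_nonneg p2.le _) hψ0
    rcases le_total 0 α with ha | ha
    · exact le_max_of_le_right (Real.rpow_le_rpow p2.le (by linarith [hr.2]) ha)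
    · exact le_max_of_le_left (Real.rpow_le_one_of_one_le_of_nonpos (by linarith [hr.1]) ha)

theorem integral_mean_bound (h : Cert t α P Q) {f : ℂ → ℂ}
    (hf : DifferentiableOn ℂ f (ball 0 1)) (hinj : InjOn f (ball 0 1)) :
    ∃ C : ℝ, ∀ r ∈ Ico (0 : ℝ) 1,
      ∫ θ in (-π)..π, ‖deriv f (P142.pt r θ)‖ ^ t ≤ C * (1 - r) ^ (-α) := by
  obtain ⟨r0, hr00, hr01, hrate⟩ := rate_nonneg_near h
  obtain ⟨hP, hQ, ε, hε, hb⟩ := h
  obtain ⟨m, m', hm, hineq, hwle⟩ := mean_growth hP hQ (fun b0 b1 b2 b3 hB => (hb b0 b1 b2 b3 hB).1)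
    hr00 hrate hf hinj
  obtain ⟨C, hC⟩ := growth_bound hr00 hr01 hm hineq fun r hr =>
    le_trans (mul_nonneg hε.le (intervalIntegral.integral_nonneg (by linarith [Real.pi_pos])
      fun θ _ => Real.rpow_nonneg (norm_nonneg _) _)) (hwle r hr)
  refine ⟨C / ε, fun r hr => ?_⟩
  have p1 : 0 < 1 - r := by linarith [hr.2]
  have hpow : 0 < (1 - r) ^ α := Real.rpow_pos_of_pos p1 α
  rw [Real.rpow_neg p1.le, ← div_eq_mul_inv, le_div_iff₀ hpow, le_div_iff₀ hε]
  calc (∫ θ in (-π)..π, ‖deriv f (P142.pt r θ)‖ ^ t) * (1 - r) ^ α * ε =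
        ε * (∫ θ in (-π)..π, ‖deriv f (P142.pt r θ)‖ ^ t) * (1 - r) ^ α := by ring
    _ ≤ m r * (1 - r) ^ α := mul_le_mul_of_nonneg_right (hwle r hr) hpow.le
    _ ≤ C := hC r hr

theorem integrable_powers (h : Cert t α P Q) (hα : α < 1) {f : ℂ → ℂ}
    (hf : DifferentiableOn ℂ f (ball 0 1)) (hinj : InjOn f (ball 0 1)) {s : ℝ}
    (hs : s ∈ Icc t 0) :
    ∫⁻ z in ball (0 : ℂ) 1, ENNReal.ofReal (‖deriv f z‖ ^ s) < ⊤ := by
  obtain ⟨C, hC⟩ := integral_mean_bound h hf hinj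
  have hne : ∀ z ∈ ball (0 : ℂ) 1, deriv f z ≠ 0 := fun z hz => deriv_ne_zero hf hinj z hz
  set g : ℂ → ℂ := fun z => ((‖deriv f z‖ ^ (t / 2) : ℝ) : ℂ)
  have hg : ContinuousOn g P142.disc :=
    continuous_ofReal.comp_continuousOn
      ((hf.deriv isOpen_ball).continuousOn.norm.rpow_const fun z hz =>
        Or.inl (norm_ne_zero_iff.2 (hne z hz)))
  have hsq : ∀ z, ‖g z‖ ^ 2 = ‖deriv f z‖ ^ t := fun z => by
    rw [Complex.norm_real, Real.norm_of_nonneg (Real.rpow_nonneg (norm_nonneg _) _),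
      ← Real.rpow_two, ← Real.rpow_mul (norm_nonneg _), div_mul_cancel₀ t two_ne_zero]
  have h2 := P142.lintegral_disc_lt_top hg hα (D := C) fun r hr => by
    simpa only [P142.J, hsq] using hC r hr
  simp only [hsq, P142.disc] at h2
  refine (setLIntegral_mono' measurableSet_ball
    (g := fun z => 1 + ENNReal.ofReal (‖deriv f z‖ ^ t)) fun z hz => ?_).trans_lt ?_
  · have hp : 0 < ‖deriv f z‖ := norm_pos_iff.2 (hne z hz)
    have h0 : 0 ≤ ‖deriv f z‖ ^ t := Real.rpow_nonneg hp.le t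
    rw [← ENNReal.ofReal_one, ← ENNReal.ofReal_add zero_le_one h0]
    refine ENNReal.ofReal_le_ofReal ?_
    rcases le_or_gt 1 ‖deriv f z‖ with h' | h'
    · linarith [Real.rpow_le_one_of_one_le_of_nonpos h' hs.2]
    · linarith [Real.rpow_le_rpow_of_exponent_ge hp h'.le hs.1]
  · rw [lintegral_add_left measurable_const, setLIntegral_const, one_mul]
    exact ENNReal.add_lt_top.2 ⟨measure_ball_lt_top, h2⟩

theorem integrable_inverse (h : Cert t α P Q) (hα : α < 1) {f φ : ℂ → ℂ}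
    (hf : DifferentiableOn ℂ f (ball 0 1)) (hφ : ∀ z ∈ ball (0 : ℂ) 1, φ (f z) = z) {s : ℝ}
    (hs : s ∈ Icc 2 (2 - t)) :
    ∫⁻ w in f '' ball 0 1, ENNReal.ofReal (‖deriv φ w‖ ^ s) < ⊤ := by
  have hinj : InjOn f (ball 0 1) := fun x hx y hy h => by rw [← hφ x hx, ← hφ y hy, h]
  have hd : ∀ z ∈ ball (0 : ℂ) 1, HasDerivAt f (deriv f z) z := fun z hz =>
    (hf.differentiableAt (isOpen_ball.mem_nhds hz)).hasDerivAt
  rw [lintegral_image_eq_lintegral_abs_det_fderiv_mul volume measurableSet_ball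
    (fun z hz => ((hd z hz).hasFDerivAt.restrictScalars ℝ).hasFDerivWithinAt) hinj]
  refine lt_of_eq_of_lt (setLIntegral_congr_fun measurableSet_ball fun z hz => ?_)
    (integrable_powers h hα hf hinj (s := 2 - s) ⟨by linarith [hs.2], by linarith [hs.1]⟩)
  have hst : HasStrictDerivAt f (deriv f z) z :=
    ((hf.analyticAt (isOpen_ball.mem_nhds hz)).hasStrictFDerivAt).hasStrictDerivAt
  have hinv := (hst.to_local_left_inverse (deriv_ne_zero hf hinj z hz)
    (Filter.eventually_of_mem (isOpen_ball.mem_nhds hz) hφ)).hasDerivAt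
  have hp : 0 < ‖deriv f z‖ := norm_pos_iff.2 (deriv_ne_zero hf hinj z hz)
  rw [hinv.deriv, P142.abs_det_smulRight, ← ENNReal.ofReal_mul (sq_nonneg _), norm_inv,
    Real.inv_rpow hp.le, Real.rpow_sub hp, Real.rpow_two, div_eq_mul_inv]

end Vale.Agent.P142J
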